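import Vale.Agent.P165.Tree.Fin.ExpTail

/-!
# Percolation above the exit criterion (P165, tree quotient)
-/

namespace Vale.Agent.P165.Tree

variable {V : Type*} [DecidableEq V]

/-- The derivative of the escape chance is at least the chance not to escape. -/
theorem one_sub_le_deriv {p r : ℝ} (hp : 0 < p) (hpr : p ≤ r) (hr : r < 1)
    (E : Finset (Sym2 V)) (S₀ : Finset V) (x : V) (hx : x ∈ S₀)
    (hφ : ∀ S ⊆ S₀, x ∈ S → 1 ≤ exitSum p E S x) :
    1 - PE r E (fun ω => ConnTo ω x ((S₀ : Set V)ᶜ)) ≤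
      ∑ e ∈ E, EE r (E.erase e) (fun ω => ind (ConnTo (insert e ω) x ((S₀ : Set V)ᶜ)) -
        ind (ConnTo ω x ((S₀ : Set V)ᶜ))) := by
  classical
  have hr0 : 0 ≤ r := by linarith
  have hp1 : p ≤ 1 := by linarith
  set A : Finset (Sym2 V) → Prop := fun ω => ConnTo ω x ((S₀ : Set V)ᶜ) with hA
  have hAinc : Incr A := incr_connTo x _
  set X := verts E \ S₀ with hX
  set K : Finset (Sym2 V) → Finset V := fun ω => reach ω X with hKdef
  have hxK : ∀ ω, ω ⊆ E → (x ∈ K ω ↔ A ω) := by
    intro ω hω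
    constructor
    · intro h
      obtain ⟨z, hz, hzc⟩ := mem_reach.1 h
      exact ⟨z, (Finset.mem_sdiff.1 hz).2, conn_symm hzc⟩
    · rintro ⟨z, hz, hc⟩
      refine mem_reach.2 ⟨z, Finset.mem_sdiff.2 ⟨?_, hz⟩, conn_symm hc⟩
      refine (conn_closed (P := fun v => v = x ∨ v ∈ verts E) (fun a b _ he _ => Or.inr
        (Finset.mem_biUnion.2 ⟨s(a, b), hω he, by simp⟩)) hc (Or.inl rfl)).resolve_left ?_
      rintro rfl
      exact hz hx
  -- a closed pivotal edge pays `1 / (1 - r)`
  have hterm : ∀ e ∈ E, EE r E (fun ω => ind (¬ A ω ∧ A (insert e ω))) =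
      (1 - r) * EE r (E.erase e) (fun ω => ind (A (insert e ω)) - ind (A ω)) := by
    intro e he
    conv_lhs => rw [← Finset.insert_erase he]
    rw [EE_insert r (Finset.notMem_erase e E)]
    have h0 : EE r (E.erase e)
        (fun ω => ind (¬ A (insert e ω) ∧ A (insert e (insert e ω)))) = 0 := by
      rw [EE_congr r (g := fun _ => (0 : ℝ)) fun ω _ => ?_, EE_const]
      refine ind_of_not fun h => h.1 ?_
      simpa using h.2
    rw [h0, mul_zero, zero_add]
    congr 1
    refine EE_congr r fun ω _ => ?_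
    by_cases h : A ω
    · rw [ind_of_not (fun h' => h'.1 h), ind_of h,
        ind_of (hAinc _ _ (Finset.subset_insert e ω) h), sub_self]
    · by_cases h' : A (insert e ω)
      · rw [ind_of ⟨h, h'⟩, ind_of h', ind_of_not h, sub_zero]
      · rw [ind_of_not (fun h'' => h' h''.2), ind_of_not h', ind_of_not h, sub_zero]
  let F : Finset V → Finset (Sym2 V) → Finset (Sym2 V) → ℝ := fun C _ b =>
    ind (x ∉ C) * ∑ u ∈ S₀ \ C, ((outE E (S₀ \ C) u).card : ℝ) *
      ind (Conn (b ∩ insideF E (S₀ \ C)) x u)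
  have hcount : ∀ ω, ω ⊆ E →
      F (K ω) (ω ∩ touch E (K ω)) (ω ∩ off E (K ω)) ≤
        ∑ e ∈ E, ind (¬ A ω ∧ A (insert e ω)) := by
    intro ω hω
    by_cases hAω : A ω
    · simp only [F]
      rw [ind_of_not (not_not.2 ((hxK ω hω).2 hAω)), zero_mul]
      exact Finset.sum_nonneg fun e _ => ind_nonneg _
    · simp only [F]
      rw [ind_of (fun h => hAω ((hxK ω hω).1 h)), one_mul]
      set S := S₀ \ K ω with hS
      set b := (ω ∩ off E (K ω)) ∩ insideF E S with hb
      have hpair : ∀ u ∈ S, ∀ e ∈ outE E S u, Conn b x u → A (insert e ω) := by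
        intro u huS e he hc
        obtain ⟨heE, hue, v, hve, hvS⟩ := mem_outE.1 he
        have huv : u ≠ v := fun h => hvS (h ▸ huS)
        have hev : e = s(u, v) := (Sym2.mem_and_mem_iff huv).1 ⟨hue, hve⟩
        have hbω : b ⊆ insert e ω :=
          (Finset.inter_subset_left.trans Finset.inter_subset_left).trans (Finset.subset_insert _ _)
        have hxv : Conn (insert e ω) x v :=
          conn_trans (conn_mono hbω hc) (conn_edge (hev ▸ Finset.mem_insert_self e ω))
        by_cases hv0 : v ∈ S₀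
        · obtain ⟨z, hz, hzc⟩ := mem_reach.1 (by simpa [hS, hv0] using hvS : v ∈ K ω)
          exact ⟨z, (Finset.mem_sdiff.1 hz).2,
            conn_trans hxv (conn_symm (conn_mono (Finset.subset_insert _ _) hzc))⟩
        · exact ⟨v, hv0, hxv⟩
      calc ∑ u ∈ S, ((outE E S u).card : ℝ) * ind (Conn b x u)
          ≤ ∑ u ∈ S, ∑ e ∈ outE E S u, ind (¬ A ω ∧ A (insert e ω)) := by
            refine Finset.sum_le_sum fun u hu => ?_
            by_cases hc : Conn b x u
            · rw [ind_of hc, mul_one]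
              refine le_of_eq ?_
              rw [Finset.sum_congr rfl (g := fun _ => (1 : ℝ))
                fun e he => ind_of ⟨hAω, hpair u hu e he hc⟩]
              simp
            · rw [ind_of_not hc, mul_zero]
              exact Finset.sum_nonneg fun e _ => ind_nonneg _
        _ = ∑ e ∈ S.biUnion (outE E S), ind (¬ A ω ∧ A (insert e ω)) := by
            refine (Finset.sum_biUnion fun u hu u' hu' hne => ?_).symm
            refine Finset.disjoint_left.2 fun e he he' => ?_
            obtain ⟨-, hue, v, hve, hvS⟩ := mem_outE.1 he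
            obtain ⟨-, hu'e, -⟩ := mem_outE.1 he'
            rw [(Sym2.mem_and_mem_iff hne).1 ⟨hue, hu'e⟩] at hve
            rcases Sym2.mem_iff.1 hve with rfl | rfl
            · exact hvS hu
            · exact hvS hu'
        _ ≤ _ := Finset.sum_le_sum_of_subset_of_nonneg
            (fun e he => by
              obtain ⟨u, -, hu⟩ := Finset.mem_biUnion.1 he
              exact (mem_outE.1 hu).1)
            fun e _ _ => ind_nonneg _
  have hinner : ∀ C : Finset V, ind (x ∉ C) ≤
      EE r (off E C) (fun b => F C ∅ b) := by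
    intro C
    simp only [F]
    rw [EE_mul_left]
    by_cases hxC : x ∈ C
    · rw [ind_of_not (not_not.2 hxC), zero_mul]
    rw [ind_of hxC, one_mul, EE_sum]
    have hI : insideF E (S₀ \ C) ⊆ off E C := fun e he => by
      obtain ⟨heE, hall⟩ := mem_insideF.1 he
      exact Finset.mem_filter.2 ⟨heE, fun ⟨v, hv, hvC⟩ => (Finset.mem_sdiff.1 (hall v hv)).2 hvC⟩
    refine le_trans (hφ (S₀ \ C) Finset.sdiff_subset (Finset.mem_sdiff.2 ⟨hx, hxC⟩)) ?_
    rw [exitSum_eq]
    refine Finset.sum_le_sum fun u _ => ?_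
    rw [EE_mul_left, EE_marginal r hI fun a => ind (Conn a x u)]
    refine mul_le_mul_of_nonneg_left ?_ (Nat.cast_nonneg _)
    calc p * PE p (insideF E (S₀ \ C)) (fun ω => Conn ω x u)
        ≤ 1 * PE r (insideF E (S₀ \ C)) (fun ω => Conn ω x u) :=
          mul_le_mul hp1 (PE_mono_p hp.le hpr hr.le (incr_conn x u))
            (PE_nonneg hp.le hp1 _) zero_le_one
      _ = _ := one_mul _
  have hD0 : 0 ≤ ∑ e ∈ E, EE r (E.erase e) (fun ω => ind (A (insert e ω)) - ind (A ω)) :=
    Finset.sum_nonneg fun e _ => EE_nonneg hr0 hr.le fun ω _ =>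
      sub_nonneg.2 (ind_mono (hAinc _ _ (Finset.subset_insert e ω)))
  calc 1 - PE r E A = EE r E (fun ω => ind (x ∉ K ω)) := by
        have : EE r E (fun ω => ind (x ∉ K ω)) + PE r E A = 1 := by
          rw [PE, ← EE_add, EE_congr r (g := fun _ => (1 : ℝ)) fun ω hω => ?_, EE_const]
          by_cases h : A ω
          · rw [ind_of_not (not_not.2 ((hxK ω hω).2 h)), ind_of h, zero_add]
          · rw [ind_of (fun h' => h ((hxK ω hω).1 h')), ind_of_not h, add_zero]
        linarith
    _ ≤ EE r E (fun ω => EE r (off E (K ω)) (F (K ω) (ω ∩ touch E (K ω)))) :=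
        EE_mono hr0 hr.le fun ω _ => hinner (K ω)
    _ = EE r E (fun ω => F (K ω) (ω ∩ touch E (K ω)) (ω ∩ off E (K ω))) :=
        (EE_explore r E K (fun ω ω' h h' hh => reach_stop E X ω ω' h h' hh) F).symm
    _ ≤ EE r E (fun ω => ∑ e ∈ E, ind (¬ A ω ∧ A (insert e ω))) := EE_mono hr0 hr.le hcount
    _ = (1 - r) * ∑ e ∈ E, EE r (E.erase e) (fun ω => ind (A (insert e ω)) - ind (A ω)) := by
        rw [EE_sum, Finset.mul_sum]
        exact Finset.sum_congr rfl hterm
    _ ≤ _ := mul_le_of_le_one_left hD0 (by linarith)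

/-- If all exit sums from `x` inside `S₀` are at least one at `p`, then the chance to leave `S₀`
at `q` is at least `1 - exp (-(q - p))`. -/
theorem sharp {p q : ℝ} (hp : 0 < p) (hpq : p ≤ q) (hq : q < 1) (E : Finset (Sym2 V))
    (hE : ∀ e ∈ E, ¬ e.IsDiag) (S₀ : Finset V) (x : V)
    (hφ : ∀ S ⊆ S₀, x ∈ S → 1 ≤ exitSum p E S x) :
    1 - Real.exp (-(q - p)) ≤ PE q E (fun ω => ConnTo ω x ((S₀ : Set V)ᶜ)) := by
  by_cases hx : x ∈ S₀
  swap
  · have h1 : PE q E (fun ω => ConnTo ω x ((S₀ : Set V)ᶜ)) = 1 := by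
      rw [PE, EE_congr q (g := fun _ => (1 : ℝ)) fun ω _ => ?_, EE_const]
      exact ind_of ⟨x, hx, conn_refl _ _⟩
    rw [h1]
    linarith [Real.exp_pos (-(q - p))]
  set θ : ℝ → ℝ := fun r => PE r E (fun ω => ConnTo ω x ((S₀ : Set V)ᶜ)) with hθ
  set θ' : ℝ → ℝ := fun r => ∑ e ∈ E, EE r (E.erase e) (fun ω =>
    ind (ConnTo (insert e ω) x ((S₀ : Set V)ᶜ)) - ind (ConnTo ω x ((S₀ : Set V)ᶜ))) with hθ'
  have hd : ∀ r, HasDerivAt θ (θ' r) r := fun r =>
    hasDerivAt_EE E (fun ω => ind (ConnTo ω x ((S₀ : Set V)ᶜ))) r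
  have hg : ∀ r, HasDerivAt (fun s => (1 - θ s) * Real.exp s)
      (-θ' r * Real.exp r + (1 - θ r) * Real.exp r) r :=
    fun r => ((hd r).const_sub 1).mul (Real.hasDerivAt_exp r)
  have hmono : AntitoneOn (fun s => (1 - θ s) * Real.exp s) (Set.Icc p q) := by
    refine antitoneOn_of_hasDerivWithinAt_nonpos (convex_Icc p q)
      (fun r _ => (hg r).continuousAt.continuousWithinAt) (fun r _ => (hg r).hasDerivWithinAt)
      fun r hr => ?_
    rw [interior_Icc] at hr
    have := one_sub_le_deriv hp hr.1.le (hr.2.trans hq) E S₀ x hx hφ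
    nlinarith [Real.exp_pos r]
  have h2 := hmono (Set.left_mem_Icc.2 hpq) (Set.right_mem_Icc.2 hpq) hpq
  have h3 : (1 - θ p) * Real.exp p ≤ Real.exp p :=
    mul_le_of_le_one_left (Real.exp_pos p).le
      (by have := PE_nonneg (E := E) hp.le (by linarith) (fun ω => ConnTo ω x ((S₀ : Set V)ᶜ))
          simp only [hθ]; linarith)
  have h4 : Real.exp p = Real.exp (-(q - p)) * Real.exp q := by rw [← Real.exp_add]; congr 1; ring
  have h5 : 1 - θ q ≤ Real.exp (-(q - p)) :=
    le_of_mul_le_mul_right (by simp only at h2; linarith) (Real.exp_pos q)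
  simp only [hθ] at h5
  linarith

end Vale.Agent.P165.Tree
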