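import Vale.Agent.P165.Tree.Fin.Conn

/-!
# Exponential tail of clusters below the exit criterion (P165, tree quotient)
-/

namespace Vale.Agent.P165.Tree

variable {V : Type*} [DecidableEq V]

open Classical in
/-- The edges of `E` with both ends in `S`. -/
noncomputable def insideF (E : Finset (Sym2 V)) (S : Finset V) : Finset (Sym2 V) :=
  E.filter fun e => ∀ v ∈ e, v ∈ S

open Classical in
/-- The exit sum `φ` of `S` from `x` inside `E`. -/
noncomputable def exitSum (p : ℝ) (E : Finset (Sym2 V)) (S : Finset V) (x : V) : ℝ :=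
  ∑ u ∈ S, ((E.filter fun e => u ∈ e ∧ ∃ v ∈ e, v ∉ S).card : ℝ) *
    (p * PE p (insideF E S) (fun ω => Conn ω x u))

open Classical in
/-- The edges of `E` leaving `S` at `u`. -/
noncomputable def outE (E : Finset (Sym2 V)) (S : Finset V) (u : V) : Finset (Sym2 V) :=
  E.filter fun e => u ∈ e ∧ ∃ v ∈ e, v ∉ S

theorem exitSum_eq (p : ℝ) (E : Finset (Sym2 V)) (S : Finset V) (x : V) :
    exitSum p E S x =
      ∑ u ∈ S, ((outE E S u).card : ℝ) * (p * PE p (insideF E S) (fun ω => Conn ω x u)) := rfl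

theorem mem_insideF {E : Finset (Sym2 V)} {S : Finset V} {e : Sym2 V} :
    e ∈ insideF E S ↔ e ∈ E ∧ ∀ v ∈ e, v ∈ S := by
  simp [insideF]

theorem mem_outE {E : Finset (Sym2 V)} {S : Finset V} {u : V} {e : Sym2 V} :
    e ∈ outE E S u ↔ e ∈ E ∧ u ∈ e ∧ ∃ v ∈ e, v ∉ S := by
  simp [outE]

theorem insideF_subset (E : Finset (Sym2 V)) (S : Finset V) : insideF E S ⊆ E :=
  fun _ he => (mem_insideF.1 he).1

theorem exitSum_mono_set {p : ℝ} (hp0 : 0 ≤ p) (hp1 : p ≤ 1) {E' E : Finset (Sym2 V)}
    (h : E' ⊆ E) (S : Finset V) (x : V) : exitSum p E' S x ≤ exitSum p E S x := by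
  rw [exitSum_eq, exitSum_eq]
  refine Finset.sum_le_sum fun u _ => mul_le_mul ?_ ?_ ?_ (Nat.cast_nonneg _)
  · exact_mod_cast Finset.card_le_card fun e he => by
      rw [mem_outE] at he ⊢; exact ⟨h he.1, he.2⟩
  · refine mul_le_mul_of_nonneg_left (PE_mono_set hp0 hp1 (incr_conn x u) ?_) hp0
    intro e he
    rw [mem_insideF] at he ⊢; exact ⟨h he.1, he.2⟩
  · exact mul_nonneg hp0 (PE_nonneg hp0 hp1 _)

omit [DecidableEq V] in
/-- A property closed under open edges spreads along connections. -/
theorem conn_closed {ω : Finset (Sym2 V)} {P : V → Prop}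
    (hP : ∀ a b, a ≠ b → s(a, b) ∈ ω → P a → P b) {x y : V} (h : Conn ω x y) (hx : P x) : P y := by
  obtain ⟨w⟩ := h
  induction w with
  | nil => exact hx
  | cons hab _ ih =>
    simp only [confGraph, SimpleGraph.fromEdgeSet_adj, Finset.mem_coe] at hab
    exact ih (hP _ _ hab.2 hab.1 hx)

/-- The cluster of `x` inside `S`. -/
noncomputable def inCl (E : Finset (Sym2 V)) (S : Finset V) (x : V) (ω : Finset (Sym2 V)) :
    Finset V :=
  reach (ω ∩ insideF E S) {x}

/-- The outer ends of a set of edges. -/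
noncomputable def outEnds (S : Finset V) (a : Finset (Sym2 V)) : Finset V :=
  (verts a).filter fun v => v ∉ S

theorem mem_inCl {E ω : Finset (Sym2 V)} {S : Finset V} {x y : V} :
    y ∈ inCl E S x ω ↔ Conn (ω ∩ insideF E S) x y := by
  simp [inCl, mem_reach]

theorem inCl_subset {E ω : Finset (Sym2 V)} {S : Finset V} {x : V} (hx : x ∈ S) :
    inCl E S x ω ⊆ S := fun y hy =>
  conn_closed (P := fun z => z ∈ S)
    (fun _ b _ he _ => (mem_insideF.1 (Finset.mem_inter.1 he).2).2 b (Sym2.mem_mk_right _ _))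
    (mem_inCl.1 hy) hx

theorem inCl_stop (E : Finset (Sym2 V)) (S : Finset V) (x : V) (ω ω' : Finset (Sym2 V))
    (h : ω ∩ touch E (inCl E S x ω) = ω' ∩ touch E (inCl E S x ω)) :
    inCl E S x ω' = inCl E S x ω := by
  refine reach_stop (insideF E S) {x} _ _ Finset.inter_subset_right Finset.inter_subset_right ?_
  ext e
  simp only [Finset.mem_inter, touch, Finset.mem_filter]
  constructor
  · rintro ⟨⟨he, hI⟩, -, ht⟩
    have : e ∈ ω ∩ touch E (inCl E S x ω) :=
      Finset.mem_inter.2 ⟨he, Finset.mem_filter.2 ⟨insideF_subset E S hI, ht⟩⟩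
    rw [h] at this
    exact ⟨⟨(Finset.mem_inter.1 this).1, hI⟩, hI, ht⟩
  · rintro ⟨⟨he, hI⟩, -, ht⟩
    have : e ∈ ω' ∩ touch E (inCl E S x ω) :=
      Finset.mem_inter.2 ⟨he, Finset.mem_filter.2 ⟨insideF_subset E S hI, ht⟩⟩
    rw [← h] at this
    exact ⟨⟨(Finset.mem_inter.1 this).1, hI⟩, hI, ht⟩

/-- Clusters beyond `inCl` start at seeds or at outer ends of open exit edges. -/
theorem reach_insert_subset {E ω : Finset (Sym2 V)} (hω : ω ⊆ E) (S X : Finset V) {x : V} (hxS : x ∈ S) :
    reach ω (insert x X) ⊆ inCl E S x ω ∪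
      reach (ω ∩ off E (inCl E S x ω))
        (X ∪ outEnds S (ω ∩ touch E (inCl E S x ω))) := by
  set R := inCl E S x ω with hR
  intro y hy
  obtain ⟨x₀, hx₀, hc⟩ := mem_reach.1 hy
  refine conn_closed (P := fun z => z ∈ R ∪ reach (ω ∩ off E R)
    (X ∪ outEnds S (ω ∩ touch E R))) ?_ hc ?_
  · intro a b hne he ha
    rw [Finset.mem_union] at ha ⊢
    by_cases hb : b ∈ R
    · exact Or.inl hb
    right
    by_cases haR : a ∈ R
    · have hbS : b ∉ S := by
        intro hbS
        apply hb
        have hI : s(a, b) ∈ insideF E S := mem_insideF.2 ⟨hω he, fun v hv => by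
          rcases Sym2.mem_iff.1 hv with rfl | rfl
          · exact inCl_subset hxS haR
          · exact hbS⟩
        exact mem_inCl.2 (conn_trans (mem_inCl.1 haR)
          (conn_edge (Finset.mem_inter.2 ⟨he, hI⟩)))
      refine mem_reach.2 ⟨b, Finset.mem_union_right _ (Finset.mem_filter.2 ⟨?_, hbS⟩), conn_refl _ _⟩
      refine Finset.mem_biUnion.2 ⟨s(a, b), Finset.mem_inter.2 ⟨he, ?_⟩, by simp⟩
      exact Finset.mem_filter.2 ⟨hω he, ⟨a, Sym2.mem_mk_left _ _, haR⟩⟩
    · obtain ⟨z, hz, hza⟩ := mem_reach.1 (ha.resolve_left haR)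
      refine mem_reach.2 ⟨z, hz, conn_trans hza (conn_edge (Finset.mem_inter.2 ⟨he, ?_⟩))⟩
      refine Finset.mem_filter.2 ⟨hω he, ?_⟩
      rintro ⟨v, hv, hvR⟩
      rcases Sym2.mem_iff.1 hv with rfl | rfl <;> contradiction
  · rcases Finset.mem_insert.1 hx₀ with rfl | hX
    · exact Finset.mem_union_left _ (mem_inCl.2 (conn_refl _ _))
    · exact Finset.mem_union_right _
        (mem_reach.2 ⟨x₀, Finset.mem_union_left _ hX, conn_refl _ _⟩)

open Classical in
/-- Outer ends are counted by the open exit edges, each only once. -/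
theorem card_outEnds_le {E ω : Finset (Sym2 V)} {S : Finset V} {x : V} (hxS : x ∈ S) :
    (outEnds S (ω ∩ touch E (inCl E S x ω))).card ≤ (touch E S).card ∧
      ((outEnds S (ω ∩ touch E (inCl E S x ω))).card : ℝ) ≤
        ∑ u ∈ S, ∑ e ∈ outE E S u, ind (Conn (ω ∩ insideF E S) x u ∧ e ∈ ω) := by
  set R := inCl E S x ω with hR
  set Q := (ω ∩ touch E R).filter fun e => ∃ v ∈ e, v ∉ S with hQdef
  have hQ : ∀ e ∈ Q, e ∈ ω ∧ e ∈ E ∧ (∃ u ∈ R, u ∈ e) ∧ ∃ v ∈ e, v ∉ S := by
    intro e he
    obtain ⟨he, hv⟩ := Finset.mem_filter.1 he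
    obtain ⟨heω, het⟩ := Finset.mem_inter.1 he
    obtain ⟨heE, v, hve, hvR⟩ := Finset.mem_filter.1 het
    exact ⟨heω, heE, ⟨v, hvR, hve⟩, hv⟩
  have h1 : (outEnds S (ω ∩ touch E R)).card ≤ Q.card := by
    calc _ ≤ (Q.biUnion fun e => e.toFinset.filter fun v => v ∉ S).card := by
          refine Finset.card_le_card fun v hv => ?_
          obtain ⟨hv, hvS⟩ := Finset.mem_filter.1 hv
          obtain ⟨e, he, hve⟩ := Finset.mem_biUnion.1 hv
          refine Finset.mem_biUnion.2 ⟨e, Finset.mem_filter.2 ⟨he, v, ?_, hvS⟩,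
            Finset.mem_filter.2 ⟨hve, hvS⟩⟩
          exact Sym2.mem_toFinset.1 hve
      _ ≤ ∑ e ∈ Q, (e.toFinset.filter fun v => v ∉ S).card := Finset.card_biUnion_le
      _ ≤ ∑ _e ∈ Q, 1 := by
          refine Finset.sum_le_sum fun e he => Finset.card_le_one.2 fun a ha b hb => ?_
          obtain ⟨u, huR, hue⟩ := (hQ e he).2.2.1
          obtain ⟨ha, haS⟩ := Finset.mem_filter.1 ha
          obtain ⟨hb, hbS⟩ := Finset.mem_filter.1 hb
          rw [Sym2.mem_toFinset] at ha hb
          have huS := inCl_subset hxS huR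
          have hua : u ≠ a := fun h => haS (h ▸ huS)
          rw [(Sym2.mem_and_mem_iff hua).1 ⟨hue, ha⟩] at hb
          rcases Sym2.mem_iff.1 hb with rfl | rfl
          · exact absurd huS hbS
          · rfl
      _ = Q.card := by simp
  refine ⟨h1.trans (Finset.card_le_card fun e he => ?_), ?_⟩
  · obtain ⟨-, heE, ⟨u, huR, hue⟩, -⟩ := hQ e he
    exact Finset.mem_filter.2 ⟨heE, u, hue, inCl_subset hxS huR⟩
  · have h2 : Q.card ≤ ∑ u ∈ S,
        ((outE E S u).filter fun e => Conn (ω ∩ insideF E S) x u ∧ e ∈ ω).card := by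
      refine le_trans (Finset.card_le_card fun e he => ?_) Finset.card_biUnion_le
      obtain ⟨heω, heE, ⟨u, huR, hue⟩, hv⟩ := hQ e he
      exact Finset.mem_biUnion.2 ⟨u, inCl_subset hxS huR,
        Finset.mem_filter.2 ⟨mem_outE.2 ⟨heE, hue, hv⟩, mem_inCl.1 huR, heω⟩⟩
    have h3 : ((outEnds S (ω ∩ touch E R)).card : ℝ) ≤ ((∑ u ∈ S,
        ((outE E S u).filter fun e => Conn (ω ∩ insideF E S) x u ∧ e ∈ ω).card : ℕ) : ℝ) :=
      Nat.cast_le.2 (h1.trans h2)
    refine h3.trans (le_of_eq ?_)
    rw [Nat.cast_sum]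
    refine Finset.sum_congr rfl fun u _ => ?_
    rw [Finset.natCast_card_filter]
    exact Finset.sum_congr rfl fun e _ => by simp [ind]

/-- An edge outside `I` is open independently of what happens inside `I`. -/
theorem EE_edge_inside (p : ℝ) {E I : Finset (Sym2 V)} {e : Sym2 V} (he : e ∈ E) (heI : e ∉ I)
    (hI : I ⊆ E) (A : Finset (Sym2 V) → Prop) :
    EE p E (fun ω => ind (A (ω ∩ I) ∧ e ∈ ω)) = p * PE p I A := by
  rw [← Finset.insert_erase he, EE_insert p (Finset.notMem_erase e E)]
  have h0 : EE p (E.erase e) (fun ω => ind (A (ω ∩ I) ∧ e ∈ ω)) = 0 := by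
    rw [EE_congr p (g := fun _ => (0 : ℝ)) fun ω hω => ?_, EE_const]
    exact ind_of_not fun h => Finset.notMem_erase e E (hω h.2)
  have h1 : EE p (E.erase e) (fun ω => ind (A (insert e ω ∩ I) ∧ e ∈ insert e ω)) = PE p I A := by
    rw [EE_congr p (g := fun ω => ind (A (ω ∩ I))) fun ω _ => ?_]
    · exact EE_marginal p (fun f hf => Finset.mem_erase.2 ⟨(by rintro rfl; exact heI hf), hI hf⟩)
        fun a => ind (A a)
    · rw [Finset.insert_inter_of_notMem heI]; simp
  rw [h0, h1]; ring

/-- The expected exponential number of outer ends. -/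
theorem EE_exp_outEnds {p : ℝ} (hp0 : 0 ≤ p) (hp1 : p ≤ 1) {E : Finset (Sym2 V)} {S : Finset V}
    {x : V} (hxS : x ∈ S) {B : ℕ} (hB : (touch E S).card ≤ B) {t ρ : ℝ} (ht : 0 ≤ t)
    (htB : t * B ≤ 1) (hφ : exitSum p E S x ≤ ρ) :
    EE p E (fun ω => Real.exp (t * (outEnds S (ω ∩ touch E (inCl E S x ω))).card)) ≤
      Real.exp (t * ρ + t ^ 2 * B ^ 2) := by
  have hN : EE p E (fun ω => ((outEnds S (ω ∩ touch E (inCl E S x ω))).card : ℝ)) ≤ ρ := by
    refine le_trans (le_trans (EE_mono hp0 hp1 fun ω _ => (card_outEnds_le hxS).2) (le_of_eq ?_)) hφ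
    rw [EE_sum, exitSum_eq]
    refine Finset.sum_congr rfl fun u _ => ?_
    rw [EE_sum, Finset.sum_congr rfl (g := fun _ => p * PE p (insideF E S) fun a => Conn a x u)
      fun e he => ?_, Finset.sum_const, nsmul_eq_mul]
    refine EE_edge_inside p (mem_outE.1 he).1 ?_ (insideF_subset E S) fun a => Conn a x u
    intro h
    obtain ⟨v, hv, hvS⟩ := (mem_outE.1 he).2.2
    exact hvS ((mem_insideF.1 h).2 v hv)
  calc EE p E (fun ω => Real.exp (t * (outEnds S (ω ∩ touch E (inCl E S x ω))).card))
      ≤ EE p E (fun ω => (1 + t ^ 2 * B ^ 2) +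
          t * ((outEnds S (ω ∩ touch E (inCl E S x ω))).card : ℝ)) := by
        refine EE_mono hp0 hp1 fun ω _ => ?_
        have hn : ((outEnds S (ω ∩ touch E (inCl E S x ω))).card : ℝ) ≤ B :=
          Nat.cast_le.2 ((card_outEnds_le hxS).1.trans hB)
        generalize hm : ((outEnds S (ω ∩ touch E (inCl E S x ω))).card : ℝ) = m at hn ⊢
        have hm0 : 0 ≤ m := hm ▸ Nat.cast_nonneg _
        have hle : t * m ≤ t * B := mul_le_mul_of_nonneg_left hn ht
        have hz : |t * m| ≤ 1 := by rw [abs_of_nonneg (mul_nonneg ht hm0)]; linarith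
        have h4 := (abs_le.1 (Real.abs_exp_sub_one_sub_id_le hz)).2
        nlinarith [pow_le_pow_left₀ (mul_nonneg ht hm0) hle 2]
    _ ≤ (1 + t ^ 2 * B ^ 2) + t * ρ := by
        rw [EE_add, EE_const, EE_mul_left]
        linarith [mul_le_mul_of_nonneg_left hN ht]
    _ ≤ _ := by linarith [Real.add_one_le_exp (t * ρ + t ^ 2 * B ^ 2)]

/-- If every vertex has a bounded set with exit sum at most `ρ < 1` then clusters have uniform
exponential moments. -/
theorem exp_tail {p ρ : ℝ} (hp0 : 0 ≤ p) (hp1 : p ≤ 1) (hρ0 : 0 ≤ ρ) (hρ : ρ < 1) (B : ℕ) :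
    ∃ h t : ℝ, 0 < h ∧ 0 ≤ t ∧ ∀ E : Finset (Sym2 V), (∀ e ∈ E, ¬ e.IsDiag) →
      (∀ x, ∃ S : Finset V, x ∈ S ∧ S.card ≤ B ∧ (touch E S).card ≤ B ∧ exitSum p E S x ≤ ρ) →
      ∀ x, EE p E (fun ω => Real.exp (h * (clF ω x).card)) ≤ Real.exp t := by
  set d : ℝ := 1 - ρ with hd
  have hd0 : 0 < d := by linarith
  set t : ℝ := d / (2 * ((B : ℝ) ^ 2 + 1)) with htdef
  set h : ℝ := t * d / (2 * ((B : ℝ) + 1)) with hhdef
  have ht : 0 < t := by positivity
  have hh : 0 < h := by positivity
  have hB0 : (0 : ℝ) ≤ B := Nat.cast_nonneg B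
  have e1 : t * (2 * ((B : ℝ) ^ 2 + 1)) = d := by rw [htdef]; field_simp
  have e2 : h * (2 * ((B : ℝ) + 1)) = t * d := by rw [hhdef]; field_simp
  have htB : t * B ≤ 1 := by nlinarith [mul_nonneg ht.le (sq_nonneg ((B : ℝ) - 1))]
  have hht : h ≤ t := by nlinarith [mul_nonneg hh.le hB0, mul_nonneg ht.le hρ0]
  have hstep : h * B + (t * ρ + t ^ 2 * B ^ 2) ≤ t := by
    nlinarith [mul_le_mul_of_nonneg_left e1.le ht.le, mul_nonneg ht.le ht.le]
  refine ⟨h, t, hh, ht.le, fun E _ hE x => ?_⟩
  suffices H : ∀ n, ∀ E' ⊆ E, E'.card = n → ∀ X : Finset V,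
      EE p E' (fun ω => Real.exp (h * (reach ω X).card)) ≤ Real.exp (t * X.card) by
    have := H _ E (Finset.Subset.refl _) rfl {x}
    simpa [clF] using this
  intro n
  induction n using Nat.strong_induction_on with
  | _ n ih =>
    intro E' hE' hn X
    induction X using Finset.induction with
    | empty =>
      rw [EE_congr p (g := fun _ => (1 : ℝ)) fun ω _ => ?_, EE_const]
      · simp
      · have : reach ω (∅ : Finset V) = ∅ :=
          Finset.eq_empty_of_forall_notMem fun y hy => by simpa using mem_reach.1 hy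
        simp [this]
    | insert a X haX ihX =>
      have hcard : ((insert a X).card : ℝ) = X.card + 1 := by
        rw [Finset.card_insert_of_notMem haX]; push_cast; ring
      rw [hcard]
      by_cases hiso : touch E' {a} = ∅
      · calc EE p E' (fun ω => Real.exp (h * (reach ω (insert a X)).card))
            ≤ EE p E' (fun ω => Real.exp h * Real.exp (h * (reach ω X).card)) := by
              refine EE_mono hp0 hp1 fun ω hω => ?_
              rw [← Real.exp_add, Real.exp_le_exp]
              have hsub : reach ω (insert a X) ⊆ insert a (reach ω X) := by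
                intro y hy
                obtain ⟨x₀, hx₀, hc⟩ := mem_reach.1 hy
                rcases Finset.mem_insert.1 hx₀ with rfl | hX
                · refine Finset.mem_insert.2 (Or.inl ?_)
                  refine conn_closed (P := fun z => z = x₀) (fun u v _ huv hu => ?_) hc rfl
                  have : s(u, v) ∈ touch E' {x₀} := Finset.mem_filter.2
                    ⟨hω huv, u, Sym2.mem_mk_left _ _, Finset.mem_singleton.2 hu⟩
                  simp [hiso] at this
                · exact Finset.mem_insert_of_mem (mem_reach.2 ⟨x₀, hX, hc⟩)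
              have h2 : ((reach ω (insert a X)).card : ℝ) ≤ (reach ω X).card + 1 := by
                exact_mod_cast (Finset.card_le_card hsub).trans (Finset.card_insert_le _ _)
              nlinarith
          _ ≤ Real.exp h * Real.exp (t * X.card) := by
              rw [EE_mul_left]; exact mul_le_mul_of_nonneg_left ihX (Real.exp_pos _).le
          _ ≤ _ := by rw [← Real.exp_add, Real.exp_le_exp]; linarith
      · obtain ⟨S, haS, hSB, htS, hφ⟩ := hE a
        have hφ' : exitSum p E' S a ≤ ρ := (exitSum_mono_set hp0 hp1 hE' S a).trans hφ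
        have htS' : (touch E' S).card ≤ B := (Finset.card_le_card
          (Finset.filter_subset_filter _ hE')).trans htS
        have hoff : ∀ ω, (off E' (inCl E' S a ω)).card < n := by
          intro ω
          rw [← hn]
          refine Finset.card_lt_card (Finset.filter_ssubset.2 ?_)
          obtain ⟨e, he⟩ := Finset.nonempty_iff_ne_empty.2 hiso
          obtain ⟨heE, v, hve, hva⟩ := Finset.mem_filter.1 he
          rw [Finset.mem_singleton] at hva
          subst hva
          exact ⟨e, heE, not_not.2 ⟨v, hve, mem_inCl.2 (conn_refl _ _)⟩⟩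
        let F : Finset V → Finset (Sym2 V) → Finset (Sym2 V) → ℝ := fun _ c b =>
          Real.exp (h * B) * Real.exp (h * (reach b (X ∪ outEnds S c)).card)
        calc EE p E' (fun ω => Real.exp (h * (reach ω (insert a X)).card))
            ≤ EE p E' (fun ω => F (inCl E' S a ω) (ω ∩ touch E' (inCl E' S a ω))
                (ω ∩ off E' (inCl E' S a ω))) := by
              refine EE_mono hp0 hp1 fun ω hω => ?_
              simp only [F]
              rw [← Real.exp_add, Real.exp_le_exp, ← mul_add]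
              refine mul_le_mul_of_nonneg_left ?_ hh.le
              have h2 := (Finset.card_le_card (reach_insert_subset hω S X haS)).trans
                (Finset.card_union_le _ _)
              have h3 := (Finset.card_le_card (inCl_subset (E := E') (ω := ω) haS)).trans hSB
              exact_mod_cast h2.trans (Nat.add_le_add_right h3 _)
          _ = EE p E' (fun ω => EE p (off E' (inCl E' S a ω))
                (F (inCl E' S a ω) (ω ∩ touch E' (inCl E' S a ω)))) :=
              EE_explore p E' (inCl E' S a) (fun ω ω' _ _ => inCl_stop E' S a ω ω') F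
          _ ≤ EE p E' (fun ω => Real.exp (h * B + t * X.card) *
                Real.exp (t * (outEnds S (ω ∩ touch E' (inCl E' S a ω))).card)) := by
              refine EE_mono hp0 hp1 fun ω _ => ?_
              simp only [F]
              rw [EE_mul_left, Real.exp_add, mul_assoc]
              refine mul_le_mul_of_nonneg_left ?_ (Real.exp_pos _).le
              refine (ih _ (hoff ω) _ ((Finset.filter_subset _ _).trans hE') rfl _).trans ?_
              rw [← Real.exp_add, Real.exp_le_exp, ← mul_add]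
              exact mul_le_mul_of_nonneg_left (by exact_mod_cast Finset.card_union_le _ _) ht.le
          _ ≤ Real.exp (h * B + t * X.card) * Real.exp (t * ρ + t ^ 2 * B ^ 2) := by
              rw [EE_mul_left]
              exact mul_le_mul_of_nonneg_left (EE_exp_outEnds hp0 hp1 haS htS' ht.le htB hφ')
                (Real.exp_pos _).le
          _ ≤ _ := by rw [← Real.exp_add, Real.exp_le_exp]; linarith

end Vale.Agent.P165.Tree
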