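import Vale.Agent.P165.Tree.Fin.Prob

/-!
# Connections in finite configurations (P165, tree quotient)
-/

namespace Vale.Agent.P165.Tree

variable {V : Type*} [DecidableEq V]

/-- The graph of the open edges. -/
def confGraph (ω : Finset (Sym2 V)) : SimpleGraph V := SimpleGraph.fromEdgeSet (ω : Set (Sym2 V))

/-- `x` and `y` are joined by open edges. -/
def Conn (ω : Finset (Sym2 V)) (x y : V) : Prop := (confGraph ω).Reachable x y

/-- `x` is joined to the set `T`. -/
def ConnTo (ω : Finset (Sym2 V)) (x : V) (T : Set V) : Prop := ∃ t ∈ T, Conn ω x t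

/-- Some vertex of `X` is joined to the set `T`. -/
def ConnSet (ω : Finset (Sym2 V)) (X : Finset V) (T : Set V) : Prop := ∃ x ∈ X, ConnTo ω x T

/-- The ends of a set of edges. -/
def verts (E : Finset (Sym2 V)) : Finset V := E.biUnion Sym2.toFinset

open Classical in
/-- The union of the clusters of the vertices of `X`. -/
noncomputable def reach (ω : Finset (Sym2 V)) (X : Finset V) : Finset V :=
  X ∪ (verts ω).filter fun y => ∃ x ∈ X, Conn ω x y

/-- The cluster of `x`. -/
noncomputable def clF (ω : Finset (Sym2 V)) (x : V) : Finset V := reach ω {x}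

/-- The edge `e` has an end in `C`. -/
def Touches (C : Finset V) (e : Sym2 V) : Prop := ∃ v ∈ e, v ∈ C

instance (C : Finset V) : DecidablePred (Touches C) := fun e =>
  decidable_of_iff (∃ v ∈ C, v ∈ e) ⟨fun ⟨v, h1, h2⟩ => ⟨v, h2, h1⟩, fun ⟨v, h1, h2⟩ => ⟨v, h2, h1⟩⟩

/-- The edges of `E` with an end in `C`. -/
def touch (E : Finset (Sym2 V)) (C : Finset V) : Finset (Sym2 V) := E.filter (Touches C)

/-- The edges of `E` with no end in `C`. -/
def off (E : Finset (Sym2 V)) (C : Finset V) : Finset (Sym2 V) :=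
  E.filter fun e => ¬ Touches C e

/-- Exploration: if the value `C = K ω` is decided by the edges touching it, then the edges off it
are fresh. -/
theorem EE_explore (p : ℝ) (E : Finset (Sym2 V)) (K : Finset (Sym2 V) → Finset V)
    (hK : ∀ ω ω', ω ⊆ E → ω' ⊆ E → ω ∩ touch E (K ω) = ω' ∩ touch E (K ω) → K ω' = K ω)
    (F : Finset V → Finset (Sym2 V) → Finset (Sym2 V) → ℝ) :
    EE p E (fun ω => F (K ω) (ω ∩ touch E (K ω)) (ω ∩ off E (K ω))) =
      EE p E (fun ω => EE p (off E (K ω)) (F (K ω) (ω ∩ touch E (K ω)))) := by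
  classical
  have split : ∀ G : Finset V → Finset (Sym2 V) → Finset (Sym2 V) → ℝ,
      EE p E (fun ω => G (K ω) (ω ∩ touch E (K ω)) (ω ∩ off E (K ω))) =
        ∑ C ∈ E.powerset.image K,
          EE p (touch E C) (fun a => if K a = C then EE p (off E C) (G C a) else 0) := by
    intro G
    have h1 : ∀ ω, ω ⊆ E → G (K ω) (ω ∩ touch E (K ω)) (ω ∩ off E (K ω)) =
        ∑ C ∈ E.powerset.image K,
          if K ω = C then G C (ω ∩ touch E C) (ω ∩ off E C) else 0 := fun ω hω => by
      rw [Finset.sum_ite_eq, if_pos (Finset.mem_image_of_mem K (Finset.mem_powerset.2 hω))]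
    rw [EE_congr p h1, EE_sum]
    refine Finset.sum_congr rfl fun C _ => ?_
    have hdisj : Disjoint (touch E C) (off E C) := Finset.disjoint_filter_filter_not E E _
    have hU : touch E C ∪ off E C = E := Finset.filter_union_filter_not_eq _ E
    conv_lhs => rw [← hU, EE_union p hdisj]
    refine EE_congr p fun a ha => ?_
    have hab : ∀ b, b ⊆ off E C → (a ∪ b) ∩ touch E C = a ∧ (a ∪ b) ∩ off E C = b := fun b hb => by
      have hd1 := Finset.disjoint_left.1 hdisj
      constructor <;> ext x <;> simp only [Finset.mem_inter, Finset.mem_union] <;> constructor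
      · rintro ⟨h | h, h'⟩
        · exact h
        · exact absurd (hb h) (hd1 h')
      · exact fun h => ⟨Or.inl h, ha h⟩
      · rintro ⟨h | h, h'⟩
        · exact absurd h' (hd1 (ha h))
        · exact h
      · exact fun h => ⟨Or.inr h, hb h⟩
    have haE : a ⊆ E := ha.trans (Finset.filter_subset _ _)
    have hK' : ∀ b, b ⊆ off E C → (K (a ∪ b) = C ↔ K a = C) := fun b hb => by
      have hbE : a ∪ b ⊆ E := Finset.union_subset haE (hb.trans (Finset.filter_subset _ _))
      have ha' : a ∩ touch E C = a := Finset.inter_eq_left.2 ha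
      constructor <;> intro h
      · rw [hK (a ∪ b) a hbE haE (by rw [h, (hab b hb).1, ha']), h]
      · rw [hK a (a ∪ b) haE hbE (by rw [h, (hab b hb).1, ha']), h]
    by_cases hC : K a = C
    · rw [if_pos hC]
      exact EE_congr p fun b hb => by
        rw [hU, if_pos ((hK' b hb).2 hC), (hab b hb).1, (hab b hb).2]
    · rw [if_neg hC, EE_congr p (g := fun _ => 0) fun b hb => ?_, EE_const]
      rw [hU, if_neg fun h => hC ((hK' b hb).1 h)]
  rw [split F, split fun C a _ => EE p (off E C) (F C a)]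
  simp only [EE_const]

theorem conn_refl (ω : Finset (Sym2 V)) (x : V) : Conn ω x x := SimpleGraph.Reachable.refl x

theorem conn_symm {ω : Finset (Sym2 V)} {x y : V} (h : Conn ω x y) : Conn ω y x :=
  SimpleGraph.Reachable.symm h

theorem conn_trans {ω : Finset (Sym2 V)} {x y z : V} (h : Conn ω x y) (h' : Conn ω y z) :
    Conn ω x z := SimpleGraph.Reachable.trans h h'

theorem conn_mono {ω ω' : Finset (Sym2 V)} (h : ω ⊆ ω') {x y : V} (hc : Conn ω x y) :
    Conn ω' x y :=
  SimpleGraph.Reachable.mono (SimpleGraph.fromEdgeSet_mono (Finset.coe_subset.2 h)) hc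

theorem incr_conn (x y : V) : Incr fun ω => Conn ω x y := fun _ _ h hc => conn_mono h hc

theorem incr_connTo (x : V) (T : Set V) : Incr fun ω => ConnTo ω x T :=
  fun _ _ h ⟨t, ht, hc⟩ => ⟨t, ht, conn_mono h hc⟩

theorem incr_connSet (X : Finset V) (T : Set V) : Incr fun ω => ConnSet ω X T :=
  fun _ _ h ⟨x, hx, hc⟩ => ⟨x, hx, incr_connTo x T _ _ h hc⟩

theorem connTo_singleton {ω : Finset (Sym2 V)} {x y : V} : ConnTo ω x {y} ↔ Conn ω x y := by
  simp [ConnTo]

theorem mem_verts {ω : Finset (Sym2 V)} {v : V} : v ∈ verts ω ↔ ∃ e ∈ ω, v ∈ e := by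
  simp [verts]

theorem verts_mono {ω ω' : Finset (Sym2 V)} (h : ω ⊆ ω') : verts ω ⊆ verts ω' := fun v hv => by
  obtain ⟨e, he, hve⟩ := mem_verts.1 hv
  exact mem_verts.2 ⟨e, h he, hve⟩

theorem confGraph_adj {ω : Finset (Sym2 V)} {u v : V} :
    (confGraph ω).Adj u v ↔ s(u, v) ∈ ω ∧ u ≠ v := by
  simp [confGraph]

theorem conn_edge {ω : Finset (Sym2 V)} {u v : V} (h : s(u, v) ∈ ω) : Conn ω u v := by
  by_cases huv : u = v
  · exact huv ▸ conn_refl ω u
  · exact (confGraph_adj.2 ⟨h, huv⟩).reachable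

theorem mem_verts_of_conn {ω : Finset (Sym2 V)} {x y : V} (h : Conn ω x y) (hne : x ≠ y) :
    y ∈ verts ω := by
  obtain ⟨w⟩ := conn_symm h
  cases w with
  | nil => exact absurd rfl hne
  | cons hadj _ => exact mem_verts.2 ⟨_, (confGraph_adj.1 hadj).1, Sym2.mem_mk_left _ _⟩

theorem mem_reach {ω : Finset (Sym2 V)} {X : Finset V} {y : V} :
    y ∈ reach ω X ↔ ∃ x ∈ X, Conn ω x y := by
  classical
  simp only [reach, Finset.mem_union, Finset.mem_filter]
  constructor
  · rintro (h | h)
    · exact ⟨y, h, conn_refl ω y⟩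
    · exact h.2
  · rintro ⟨x, hx, hc⟩
    by_cases hxy : x = y
    · exact Or.inl (hxy ▸ hx)
    · exact Or.inr ⟨mem_verts_of_conn hc hxy, x, hx, hc⟩

theorem mem_clF {ω : Finset (Sym2 V)} {x y : V} : y ∈ clF ω x ↔ Conn ω x y := by
  simp [clF, mem_reach]

theorem reach_mono {ω ω' : Finset (Sym2 V)} (h : ω ⊆ ω') (X : Finset V) :
    reach ω X ⊆ reach ω' X := fun y hy => by
  obtain ⟨x, hx, hc⟩ := mem_reach.1 hy
  exact mem_reach.2 ⟨x, hx, conn_mono h hc⟩

/-- A walk transfers along a set of vertices which its edges do not leave. -/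
theorem conn_transfer {ω ω' : Finset (Sym2 V)} (P : V → Prop)
    (h : ∀ u v, P u → s(u, v) ∈ ω → s(u, v) ∈ ω' ∧ P v) {x y : V} (hx : P x) (hc : Conn ω x y) :
    Conn ω' x y ∧ P y := by
  obtain ⟨w⟩ := hc
  induction w with
  | nil => exact ⟨conn_refl _ _, hx⟩
  | cons hadj _ ih =>
    obtain ⟨h1, h2⟩ := h _ _ hx (confGraph_adj.1 hadj).1
    exact ⟨conn_trans (conn_edge h1) (ih h2).1, (ih h2).2⟩

/-- The ends of a walk are joined within its edges. -/
theorem conn_of_confWalk {ω a : Finset (Sym2 V)} {x y : V} (w : (confGraph ω).Walk x y)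
    (h : ∀ e ∈ w.edges, e ∈ a) : Conn a x y := by
  induction w with
  | nil => exact conn_refl _ _
  | cons hadj w ih =>
    simp only [SimpleGraph.Walk.edges_cons, List.mem_cons, forall_eq_or_imp] at h
    exact conn_trans (conn_edge h.1) (ih h.2)

theorem edges_mem {ω : Finset (Sym2 V)} {x y : V} (w : (confGraph ω).Walk x y) :
    ∀ e ∈ w.edges, e ∈ ω := fun e he => by
  have := w.edges_subset_edgeSet he
  simp only [confGraph, SimpleGraph.edgeSet_fromEdgeSet] at this
  exact Finset.mem_coe.1 this.1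

/-- The union of clusters is decided by the edges touching it. -/
theorem reach_stop (E : Finset (Sym2 V)) (X : Finset V) (ω ω' : Finset (Sym2 V)) (hω : ω ⊆ E)
    (hω' : ω' ⊆ E) (h : ω ∩ touch E (reach ω X) = ω' ∩ touch E (reach ω X)) :
    reach ω' X = reach ω X := by
  have hin : ∀ u v, u ∈ reach ω X → s(u, v) ∈ E → s(u, v) ∈ touch E (reach ω X) := fun u v hu hE =>
    Finset.mem_filter.2 ⟨hE, u, Sym2.mem_mk_left _ _, hu⟩
  have hstep : ∀ u v, u ∈ reach ω X → s(u, v) ∈ ω → v ∈ reach ω X := fun u v hu he => by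
    obtain ⟨x, hx, hc⟩ := mem_reach.1 hu
    exact mem_reach.2 ⟨x, hx, conn_trans hc (conn_edge he)⟩
  have hX : ∀ x ∈ X, x ∈ reach ω X := fun x hx => mem_reach.2 ⟨x, hx, conn_refl ω x⟩
  apply Finset.Subset.antisymm <;> intro y hy <;> obtain ⟨x, hx, hc⟩ := mem_reach.1 hy
  · refine (conn_transfer (ω' := ω) (· ∈ reach ω X) (fun u v hu he => ?_) (hX x hx) hc).2
    have h1 : s(u, v) ∈ ω' ∩ touch E (reach ω X) := Finset.mem_inter.2 ⟨he, hin u v hu (hω' he)⟩
    rw [← h] at h1
    exact ⟨(Finset.mem_inter.1 h1).1, hstep u v hu (Finset.mem_inter.1 h1).1⟩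
  · refine mem_reach.2 ⟨x, hx,
      (conn_transfer (ω' := ω') (· ∈ reach ω X) (fun u v hu he => ?_) (hX x hx) hc).1⟩
    have h1 : s(u, v) ∈ ω ∩ touch E (reach ω X) := Finset.mem_inter.2 ⟨he, hin u v hu (hω he)⟩
    rw [h] at h1
    exact ⟨(Finset.mem_inter.1 h1).1, hstep u v hu he⟩

/-- Two vertices joined to `T` in distinct clusters are joined disjointly. -/
theorem box_of_not_conn {ω : Finset (Sym2 V)} {a b : V} {T : Set V} (ha : ConnTo ω a T)
    (hb : ConnTo ω b T) (hab : ¬ Conn ω a b) :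
    Box (fun s => ConnTo s a T) (fun s => ConnTo s b T) ω := by
  classical
  have key : ∀ c, ConnTo ω c T →
      ConnTo (ω.filter fun e => ∃ v ∈ e, Conn ω c v) c T := fun c hc => by
    obtain ⟨t, ht, hct⟩ := hc
    refine ⟨t, ht, (conn_transfer (fun v => Conn ω c v) (fun u v hu he => ?_) (conn_refl ω c) hct).1⟩
    exact ⟨Finset.mem_filter.2 ⟨he, u, Sym2.mem_mk_left _ _, hu⟩, conn_trans hu (conn_edge he)⟩
  refine ⟨_, _, ?_, Finset.filter_subset _ _, Finset.filter_subset _ _, key a ha, key b hb⟩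
  rw [Finset.disjoint_left]
  intro e he he'
  obtain ⟨heω, u, hu, hau⟩ := Finset.mem_filter.1 he
  obtain ⟨-, v, hv, hbv⟩ := Finset.mem_filter.1 he'
  have huv : Conn ω u v := by
    by_cases hne : u = v
    · exact hne ▸ conn_refl ω u
    · exact conn_edge ((Sym2.mem_and_mem_iff hne).1 ⟨hu, hv⟩ ▸ heω)
  exact hab (conn_trans hau (conn_trans huv (conn_symm hbv)))

/-- A simple path through `v` gives two disjoint connections. -/
theorem box_of_path {ω : Finset (Sym2 V)} {x y : V} (w : (confGraph ω).Walk x y) (hw : w.IsPath)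
    {v : V} (hv : v ∈ w.support) :
    Box (fun s => Conn s x v) (fun s => Conn s v y) ω := by
  refine ⟨(w.takeUntil v hv).edges.toFinset, (w.dropUntil v hv).edges.toFinset, ?_, ?_, ?_,
    conn_of_confWalk (w.takeUntil v hv) fun e he => List.mem_toFinset.2 he,
    conn_of_confWalk (w.dropUntil v hv) fun e he => List.mem_toFinset.2 he⟩
  · have hnd := hw.isTrail.edges_nodup
    rw [← w.take_spec hv, SimpleGraph.Walk.edges_append, List.nodup_append'] at hnd
    rw [Finset.disjoint_left]
    exact fun e he he' => hnd.2.2 (List.mem_toFinset.1 he) (List.mem_toFinset.1 he')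
  · exact fun e he => edges_mem _ e (List.mem_toFinset.1 he)
  · exact fun e he => edges_mem _ e (List.mem_toFinset.1 he)

/-- A walk into a set of vertices has an initial piece whose edges leave the set. -/
theorem walk_to_set {ω : Finset (Sym2 V)} (S : List V) {u z : V} (q : (confGraph ω).Walk u z)
    (hz : z ∈ S) : ∃ v ∈ S, ∃ q' : (confGraph ω).Walk u v, ∀ e ∈ q'.edges, ∃ x ∈ e, x ∉ S := by
  induction q with
  | nil => exact ⟨_, hz, .nil, by simp⟩
  | @cons u u' z hadj q ih =>
    by_cases hu : u ∈ S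
    · exact ⟨u, hu, .nil, by simp⟩
    obtain ⟨v, hv, q', hq'⟩ := ih hz
    refine ⟨v, hv, .cons hadj q', ?_⟩
    simp only [SimpleGraph.Walk.edges_cons, List.mem_cons, forall_eq_or_imp]
    exact ⟨⟨u, Sym2.mem_mk_left _ _, hu⟩, hq'⟩

theorem incr_boxConn (A B : Finset (Sym2 V) → Prop) : Incr (Box A B) :=
  fun _ _ h ⟨a, b, hd, ha, hb, hA, hB⟩ => ⟨a, b, hd, ha.trans h, hb.trans h, hA, hB⟩

/-- A vertex joined to two vertices: three disjoint connections from a branch vertex. -/
theorem box_tree {ω : Finset (Sym2 V)} {z y₁ y₂ : V} (h₁ : Conn ω z y₁) (h₂ : Conn ω z y₂) :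
    ∃ v ∈ clF ω z,
      Box (Box (fun s => Conn s z v) (fun s => Conn s v y₁)) (fun s => Conn s v y₂) ω := by
  obtain ⟨w⟩ := h₁
  obtain ⟨q⟩ := h₂
  obtain ⟨v, hv, q', hq'⟩ := walk_to_set w.bypass.support q.reverse w.bypass.start_mem_support
  refine ⟨v, mem_clF.2 (conn_of_confWalk (w.bypass.takeUntil v hv) (edges_mem _)),
    w.bypass.edges.toFinset, q'.edges.toFinset, ?_, ?_, ?_, ?_,
    conn_symm (conn_of_confWalk q' fun e he => List.mem_toFinset.2 he)⟩
  · rw [Finset.disjoint_left]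
    intro e he he'
    obtain ⟨x, hx, hxS⟩ := hq' e (List.mem_toFinset.1 he')
    obtain ⟨x', rfl⟩ := hx
    exact hxS (w.bypass.fst_mem_support_of_mem_edges (List.mem_toFinset.1 he))
  · exact fun e he => edges_mem _ e (List.mem_toFinset.1 he)
  · exact fun e he => edges_mem _ e (List.mem_toFinset.1 he)
  · have hT : ∀ e ∈ w.bypass.edges, e ∈ (confGraph w.bypass.edges.toFinset).edgeSet := fun e he => by
      simp only [confGraph, SimpleGraph.edgeSet_fromEdgeSet]
      exact ⟨Finset.mem_coe.2 (List.mem_toFinset.2 he),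
        (confGraph ω).not_isDiag_of_mem_edgeSet (w.bypass.edges_subset_edgeSet he)⟩
    exact box_of_path (w.bypass.transfer _ hT) (w.bypass_isPath.transfer hT)
      (by rwa [SimpleGraph.Walk.support_transfer])

/-- The tree graph inequality. -/
theorem treeGraph {p : ℝ} (hp0 : 0 ≤ p) (hp1 : p ≤ 1) (E : Finset (Sym2 V)) (z y₁ y₂ : V) :
    PE p E (fun ω => Conn ω z y₁ ∧ Conn ω z y₂) ≤
      ∑ v ∈ insert z (verts E), PE p E (fun ω => Conn ω z v) *
        PE p E (fun ω => Conn ω v y₁) * PE p E (fun ω => Conn ω v y₂) := by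
  refine le_trans ?_ (Finset.sum_le_sum fun v _ => le_trans
    (bk hp0 hp1 (incr_boxConn (fun s => Conn s z v) (fun s => Conn s v y₁)) (incr_conn v y₂))
    (mul_le_mul_of_nonneg_right (bk hp0 hp1 (incr_conn z v) (incr_conn v y₁))
      (PE_nonneg hp0 hp1 _)))
  unfold PE
  rw [← EE_sum]
  refine EE_mono hp0 hp1 fun ω hω => ?_
  by_cases h : Conn ω z y₁ ∧ Conn ω z y₂
  · obtain ⟨v, hv, hbox⟩ := box_tree h.1 h.2
    have hmem : v ∈ insert z (verts E) := by
      by_cases hzv : z = v
      · simp [hzv]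
      · exact Finset.mem_insert_of_mem (verts_mono hω (mem_verts_of_conn (mem_clF.1 hv) hzv))
    refine le_trans ?_ (Finset.single_le_sum
      (fun v _ => ind_nonneg
        (Box (Box (fun s => Conn s z v) (fun s => Conn s v y₁)) (fun s => Conn s v y₂) ω)) hmem)
    simp only [ind_of h, ind_of hbox, le_refl]
  · rw [ind_of_not h]
    exact Finset.sum_nonneg fun v _ => ind_nonneg _

end Vale.Agent.P165.Tree
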