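import Mathlib

/-!
# Independent bits on a finite set (P165, tree quotient)

A configuration on `E` is a subset `ω ⊆ E`, of weight `p ^ |ω| * (1 - p) ^ |E \ ω|`.
-/

namespace Vale.Agent.P165.Tree

open scoped BigOperators

variable {α : Type*} [DecidableEq α]

/-- The weight of the configuration `ω ⊆ E`. -/
def wt (p : ℝ) (E ω : Finset α) : ℝ := p ^ ω.card * (1 - p) ^ (E \ ω).card

/-- The expectation of `f` under independent bits of parameter `p` on `E`. -/
def EE (p : ℝ) (E : Finset α) (f : Finset α → ℝ) : ℝ := ∑ ω ∈ E.powerset, wt p E ω * f ω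

open Classical in
/-- The real indicator of a proposition. -/
noncomputable def ind (P : Prop) : ℝ := if P then 1 else 0

/-- The probability of `A` under independent bits of parameter `p` on `E`. -/
noncomputable def PE (p : ℝ) (E : Finset α) (A : Finset α → Prop) : ℝ :=
  EE p E fun ω => ind (A ω)

/-- An event closed under adding open bits. -/
def Incr (A : Finset α → Prop) : Prop := ∀ a b, a ⊆ b → A a → A b

/-- Disjoint occurrence of two events. -/
def Box (A B : Finset α → Prop) (ω : Finset α) : Prop :=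
  ∃ a b, Disjoint a b ∧ a ⊆ ω ∧ b ⊆ ω ∧ A a ∧ B b

/-- The open bits whose closing destroys `A`. -/
noncomputable def piv (A : Finset α → Prop) (ω : Finset α) : Finset α :=
  open Classical in ω.filter fun e => ¬ A (ω.erase e)

theorem ind_nonneg (P : Prop) : 0 ≤ ind P := by
  unfold ind; split <;> norm_num

theorem ind_le_one (P : Prop) : ind P ≤ 1 := by
  unfold ind; split <;> norm_num

theorem ind_of {P : Prop} (h : P) : ind P = 1 := by simp [ind, h]

theorem ind_of_not {P : Prop} (h : ¬ P) : ind P = 0 := by simp [ind, h]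

theorem ind_mono {P Q : Prop} (h : P → Q) : ind P ≤ ind Q := by
  by_cases hP : P
  · simp [ind_of hP, ind_of (h hP)]
  · simpa [ind_of_not hP] using ind_nonneg Q

theorem EE_congr (p : ℝ) {E : Finset α} {f g : Finset α → ℝ} (h : ∀ ω, ω ⊆ E → f ω = g ω) :
    EE p E f = EE p E g :=
  Finset.sum_congr rfl fun ω hω => by rw [h ω (Finset.mem_powerset.1 hω)]

theorem EE_empty (p : ℝ) (f : Finset α → ℝ) : EE p ∅ f = f ∅ := by simp [EE, wt]

theorem EE_insert (p : ℝ) {E : Finset α} {e : α} (he : e ∉ E) (f : Finset α → ℝ) :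
    EE p (insert e E) f = p * EE p E (fun ω => f (insert e ω)) + (1 - p) * EE p E f := by
  rw [EE, Finset.sum_powerset_insert he, EE, EE, Finset.mul_sum, Finset.mul_sum, add_comm]
  congr 1
  · refine Finset.sum_congr rfl fun ω hω => ?_
    have hωE := Finset.mem_powerset.1 hω
    have h1 : e ∉ ω := fun h => he (hωE h)
    have h2 : insert e E \ insert e ω = E \ ω := by
      ext x; by_cases hx : x = e <;> simp [hx, he]
    simp [wt, Finset.card_insert_of_notMem h1, h2, pow_succ]; ring
  · refine Finset.sum_congr rfl fun ω hω => ?_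
    have hωE := Finset.mem_powerset.1 hω
    have h1 : e ∉ ω := fun h => he (hωE h)
    have h2 : insert e E \ ω = insert e (E \ ω) := by
      ext x; by_cases hx : x = e <;> simp [hx, h1]
    have h3 : e ∉ E \ ω := fun h => he (Finset.mem_sdiff.1 h).1
    simp [wt, h2, Finset.card_insert_of_notMem h3, pow_succ]; ring

variable {p : ℝ} {E : Finset α}

theorem wt_nonneg (hp0 : 0 ≤ p) (hp1 : p ≤ 1) (ω : Finset α) : 0 ≤ wt p E ω :=
  mul_nonneg (pow_nonneg hp0 _) (pow_nonneg (by linarith) _)

theorem EE_const (p : ℝ) (E : Finset α) (c : ℝ) : EE p E (fun _ => c) = c := by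
  induction E using Finset.induction with
  | empty => simp [EE_empty]
  | insert e E he ih => rw [EE_insert p he]; simp only [ih]; ring

theorem EE_add (p : ℝ) (E : Finset α) (f g : Finset α → ℝ) :
    EE p E (fun ω => f ω + g ω) = EE p E f + EE p E g := by
  simp [EE, mul_add, Finset.sum_add_distrib]

theorem EE_mul_left (p : ℝ) (E : Finset α) (c : ℝ) (f : Finset α → ℝ) :
    EE p E (fun ω => c * f ω) = c * EE p E f := by
  simp [EE, Finset.mul_sum, mul_left_comm]

theorem EE_sum (p : ℝ) (E : Finset α) {ι : Type*} (s : Finset ι) (f : ι → Finset α → ℝ) :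
    EE p E (fun ω => ∑ i ∈ s, f i ω) = ∑ i ∈ s, EE p E (f i) := by
  simp only [EE, Finset.mul_sum]; exact Finset.sum_comm

theorem EE_mono (hp0 : 0 ≤ p) (hp1 : p ≤ 1) {f g : Finset α → ℝ}
    (h : ∀ ω, ω ⊆ E → f ω ≤ g ω) : EE p E f ≤ EE p E g :=
  Finset.sum_le_sum fun ω hω =>
    mul_le_mul_of_nonneg_left (h ω (Finset.mem_powerset.1 hω)) (wt_nonneg hp0 hp1 ω)

theorem EE_nonneg (hp0 : 0 ≤ p) (hp1 : p ≤ 1) {f : Finset α → ℝ}
    (h : ∀ ω, ω ⊆ E → 0 ≤ f ω) : 0 ≤ EE p E f :=
  Finset.sum_nonneg fun ω hω => mul_nonneg (wt_nonneg hp0 hp1 ω) (h ω (Finset.mem_powerset.1 hω))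

theorem PE_nonneg (hp0 : 0 ≤ p) (hp1 : p ≤ 1) (A : Finset α → Prop) : 0 ≤ PE p E A :=
  EE_nonneg hp0 hp1 fun _ _ => ind_nonneg _

theorem PE_le_one (hp0 : 0 ≤ p) (hp1 : p ≤ 1) (A : Finset α → Prop) : PE p E A ≤ 1 := by
  refine (EE_mono hp0 hp1 (g := fun _ => 1) fun _ _ => ind_le_one _).trans ?_
  rw [EE_const]

theorem PE_mono (hp0 : 0 ≤ p) (hp1 : p ≤ 1) {A B : Finset α → Prop}
    (h : ∀ ω, ω ⊆ E → A ω → B ω) : PE p E A ≤ PE p E B :=
  EE_mono hp0 hp1 fun ω hω => ind_mono (h ω hω)

/-- Splitting a disjoint union of index sets. -/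
theorem EE_union (p : ℝ) {E₁ E₂ : Finset α} (h : Disjoint E₁ E₂) (f : Finset α → ℝ) :
    EE p (E₁ ∪ E₂) f = EE p E₁ (fun a => EE p E₂ fun b => f (a ∪ b)) := by
  induction E₁ using Finset.induction generalizing f with
  | empty => simp [EE_empty]
  | insert e E he ih =>
    rw [Finset.disjoint_insert_left] at h
    rw [Finset.insert_union, EE_insert p (by simp [he, h.1]), EE_insert p he,
      ih h.2, ih h.2]
    simp [Finset.insert_union]

/-- A function of the bits in `E'` has the same expectation on every larger index set. -/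
theorem EE_marginal (p : ℝ) {E' E : Finset α} (h : E' ⊆ E) (f : Finset α → ℝ) :
    EE p E (fun ω => f (ω ∩ E')) = EE p E' f := by
  have hE : E' ∪ (E \ E') = E := Finset.union_sdiff_of_subset h
  conv_lhs => rw [← hE, EE_union p Finset.disjoint_sdiff]
  refine EE_congr p fun a ha => ?_
  rw [EE_congr p (g := fun _ => f a) fun b hb => ?_, EE_const]
  congr 1
  ext x
  simp only [Finset.mem_inter, Finset.mem_union]
  constructor
  · rintro ⟨h1 | h1, h2⟩
    · exact h1
    · exact absurd h2 (Finset.mem_sdiff.1 (hb h1)).2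
  · exact fun hx => ⟨Or.inl hx, ha hx⟩

theorem PE_mono_set (hp0 : 0 ≤ p) (hp1 : p ≤ 1) {A : Finset α → Prop} (hA : Incr A)
    {E' : Finset α} (h : E' ⊆ E) : PE p E' A ≤ PE p E A := by
  unfold PE
  rw [← EE_marginal p h fun ω => ind (A ω)]
  exact EE_mono hp0 hp1 fun ω _ => ind_mono (hA _ _ Finset.inter_subset_left)

theorem continuous_EE (E : Finset α) (f : Finset α → ℝ) : Continuous fun p : ℝ => EE p E f := by
  unfold EE wt; fun_prop

/-! Monotonicity in `p`, Harris, van den Berg–Kesten, thinning, Russo, second moment: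
inductions on the index set. -/

theorem EE_mono_p {q : ℝ} (hp0 : 0 ≤ p) (hpq : p ≤ q) (hq1 : q ≤ 1) {f : Finset α → ℝ}
    (hf : ∀ a b, a ⊆ b → b ⊆ E → f a ≤ f b) : EE p E f ≤ EE q E f := by
  induction E using Finset.induction generalizing f with
  | empty => simp [EE_empty]
  | insert e E he ih =>
    rw [EE_insert p he, EE_insert q he]
    have h0 : EE p E f ≤ EE q E f :=
      ih fun a b hab hb => hf a b hab (hb.trans (Finset.subset_insert e E))
    have h1 : EE p E (fun ω => f (insert e ω)) ≤ EE q E (fun ω => f (insert e ω)) :=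
      ih fun a b hab hb => hf _ _ (Finset.insert_subset_insert e hab)
        (Finset.insert_subset_insert e hb)
    have h2 : EE q E f ≤ EE q E (fun ω => f (insert e ω)) :=
      EE_mono (by linarith) hq1 fun ω hω =>
        hf _ _ (Finset.subset_insert e ω) (Finset.insert_subset_insert e hω)
    have i1 := mul_le_mul_of_nonneg_left h1 hp0
    have i2 := mul_le_mul_of_nonneg_left h0 (show (0 : ℝ) ≤ 1 - p by linarith)
    have i3 := mul_nonneg (sub_nonneg.2 hpq) (sub_nonneg.2 h2)
    linarith

theorem PE_mono_p {q : ℝ} (hp0 : 0 ≤ p) (hpq : p ≤ q) (hq1 : q ≤ 1) {A : Finset α → Prop}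
    (hA : Incr A) : PE p E A ≤ PE q E A :=
  EE_mono_p hp0 hpq hq1 fun a b hab _ => ind_mono (hA a b hab)

/-- Harris' inequality for functions. -/
theorem harris_EE (hp0 : 0 ≤ p) (hp1 : p ≤ 1) {f g : Finset α → ℝ}
    (hf : ∀ a b, a ⊆ b → b ⊆ E → f a ≤ f b) (hg : ∀ a b, a ⊆ b → b ⊆ E → g a ≤ g b) :
    EE p E f * EE p E g ≤ EE p E (fun ω => f ω * g ω) := by
  induction E using Finset.induction generalizing f g with
  | empty => simp [EE_empty]
  | insert e E he ih =>
    rw [EE_insert p he, EE_insert p he, EE_insert p he]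
    have i0 : EE p E f * EE p E g ≤ EE p E (fun ω => f ω * g ω) :=
      ih (fun a b hab hb => hf a b hab (hb.trans (Finset.subset_insert e E)))
        (fun a b hab hb => hg a b hab (hb.trans (Finset.subset_insert e E)))
    have i1 : EE p E (fun ω => f (insert e ω)) * EE p E (fun ω => g (insert e ω))
        ≤ EE p E (fun ω => f (insert e ω) * g (insert e ω)) :=
      ih (fun a b hab hb => hf _ _ (Finset.insert_subset_insert e hab)
          (Finset.insert_subset_insert e hb))
        (fun a b hab hb => hg _ _ (Finset.insert_subset_insert e hab)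
          (Finset.insert_subset_insert e hb))
    have m1 : EE p E f ≤ EE p E (fun ω => f (insert e ω)) :=
      EE_mono hp0 hp1 fun ω hω =>
        hf _ _ (Finset.subset_insert e ω) (Finset.insert_subset_insert e hω)
    have m2 : EE p E g ≤ EE p E (fun ω => g (insert e ω)) :=
      EE_mono hp0 hp1 fun ω hω =>
        hg _ _ (Finset.subset_insert e ω) (Finset.insert_subset_insert e hω)
    have hp' : (0 : ℝ) ≤ 1 - p := by linarith
    have j1 := mul_le_mul_of_nonneg_left i1 hp0
    have j0 := mul_le_mul_of_nonneg_left i0 hp'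
    have j2 := mul_nonneg (mul_nonneg hp0 hp') (mul_nonneg (sub_nonneg.2 m1) (sub_nonneg.2 m2))
    linarith

/-- Harris' inequality. -/
theorem harris (hp0 : 0 ≤ p) (hp1 : p ≤ 1) {A B : Finset α → Prop} (hA : Incr A) (hB : Incr B) :
    PE p E A * PE p E B ≤ PE p E (fun ω => A ω ∧ B ω) := by
  refine (harris_EE hp0 hp1 (fun a b hab _ => ind_mono (hA a b hab))
    (fun a b hab _ => ind_mono (hB a b hab))).trans (le_of_eq (EE_congr p fun ω _ => ?_))
  by_cases h1 : A ω <;> by_cases h2 : B ω <;> simp [ind, h1, h2]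

/-- The van den Berg–Kesten inequality. -/
theorem bk (hp0 : 0 ≤ p) (hp1 : p ≤ 1) {A B : Finset α → Prop} (hA : Incr A) (hB : Incr B) :
    PE p E (Box A B) ≤ PE p E A * PE p E B := by
  induction E using Finset.induction generalizing A B with
  | empty =>
    simp only [PE, EE_empty]
    by_cases h : Box A B ∅
    · obtain ⟨a, b, -, ha, hb, hAa, hBb⟩ := h
      rw [ind_of (hA a ∅ ha hAa), ind_of (hB b ∅ hb hBb)]
      simpa using ind_le_one (Box A B ∅)
    · rw [ind_of_not h]
      exact mul_nonneg (ind_nonneg _) (ind_nonneg _)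
  | insert e E he ih =>
    have hA1 : Incr (fun ω => A (insert e ω)) :=
      fun a b hab h => hA _ _ (Finset.insert_subset_insert e hab) h
    have hB1 : Incr (fun ω => B (insert e ω)) :=
      fun a b hab h => hB _ _ (Finset.insert_subset_insert e hab) h
    have b11 := ih hA1 hB1
    have b10 := ih hA1 hB
    have b01 := ih hA hB1
    have b00 := ih hA hB
    have key : ∀ ω, Box A B (insert e ω) →
        Box (fun ω => A (insert e ω)) B ω ∨ Box A (fun ω => B (insert e ω)) ω := by
      rintro ω ⟨a, b, hab, ha, hb, hAa, hBb⟩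
      have hsub : ∀ c, c ⊆ insert e ω → c.erase e ⊆ ω := fun c hc =>
        Finset.subset_insert_iff.1 hc
      by_cases hea : e ∈ a
      · have heb : e ∉ b := Finset.disjoint_left.1 hab hea
        refine Or.inl ⟨a.erase e, b, hab.mono_left (Finset.erase_subset _ _), hsub a ha,
          (Finset.subset_insert_iff_of_notMem heb).1 hb, ?_, hBb⟩
        show A (insert e (a.erase e))
        rwa [Finset.insert_erase hea]
      · refine Or.inr ⟨a, b.erase e, hab.mono_right (Finset.erase_subset _ _),
          (Finset.subset_insert_iff_of_notMem hea).1 ha, hsub b hb, hAa, ?_⟩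
        show B (insert e (b.erase e))
        exact hB b _ (fun x hx => by by_cases hxe : x = e <;> simp [hxe, hx]) hBb
    have hC : PE p E (fun ω => Box A B (insert e ω)) + PE p E (Box A B)
        ≤ PE p E (Box (fun ω => A (insert e ω)) B) + PE p E (Box A (fun ω => B (insert e ω))) := by
      simp only [PE, ← EE_add]
      refine EE_mono hp0 hp1 fun ω _ => ?_
      by_cases h : Box A B ω
      · obtain ⟨a, b, hab, ha, hb, hAa, hBb⟩ := h
        have h1 : Box (fun ω => A (insert e ω)) B ω :=
          ⟨a, b, hab, ha, hb, hA _ _ (Finset.subset_insert e a) hAa, hBb⟩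
        have h2 : Box A (fun ω => B (insert e ω)) ω :=
          ⟨a, b, hab, ha, hb, hAa, hB _ _ (Finset.subset_insert e b) hBb⟩
        rw [ind_of h1, ind_of h2]
        linarith [ind_le_one (Box A B (insert e ω)), ind_le_one (Box A B ω)]
      · rw [ind_of_not h, add_zero]
        by_cases hc : Box A B (insert e ω)
        · rcases key ω hc with h' | h'
          · rw [ind_of h']
            linarith [ind_nonneg (Box A (fun ω => B (insert e ω)) ω),
              ind_le_one (Box A B (insert e ω))]
          · rw [ind_of h']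
            linarith [ind_nonneg (Box (fun ω => A (insert e ω)) B ω),
              ind_le_one (Box A B (insert e ω))]
        · rw [ind_of_not hc]
          exact add_nonneg (ind_nonneg _) (ind_nonneg _)
    have hC' : PE p E (fun ω => Box A B (insert e ω))
        ≤ PE p E (Box (fun ω => A (insert e ω)) (fun ω => B (insert e ω))) := by
      refine PE_mono hp0 hp1 fun ω _ hc => ?_
      rcases key ω hc with ⟨a, b, hab, ha, hb, hAa, hBb⟩ | ⟨a, b, hab, ha, hb, hAa, hBb⟩
      · exact ⟨a, b, hab, ha, hb, hAa, hB _ _ (Finset.subset_insert e b) hBb⟩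
      · exact ⟨a, b, hab, ha, hb, hA _ _ (Finset.subset_insert e a) hAa, hBb⟩
    simp only [PE] at b11 b10 b01 b00 hC hC' ⊢
    rw [EE_insert p he, EE_insert p he, EE_insert p he]
    have hp' : (0 : ℝ) ≤ 1 - p := by linarith
    have i1 := mul_le_mul_of_nonneg_left hC (mul_nonneg hp0 hp')
    have i2 := mul_le_mul_of_nonneg_left (hC'.trans b11) (mul_nonneg hp0 hp0)
    have i3 := mul_le_mul_of_nonneg_left b10 (mul_nonneg hp0 hp')
    have i4 := mul_le_mul_of_nonneg_left b01 (mul_nonneg hp0 hp')
    have i5 := mul_le_mul_of_nonneg_left b00 (mul_nonneg hp' hp')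
    linarith

/-- Thinning: every open bit pivotal for `A` has to survive. -/
theorem thinning {p₀ : ℝ} (hp₀ : 0 ≤ p₀) (h : p₀ ≤ p) (hp : 0 < p) (hp1 : p ≤ 1)
    {A : Finset α → Prop} (hA : Incr A) :
    PE p₀ E A ≤ EE p E (fun ω => ind (A ω) * (p₀ / p) ^ (piv A ω).card) := by
  classical
  induction E using Finset.induction generalizing A with
  | empty =>
    have h0 : piv A ∅ = ∅ := Finset.subset_empty.1 fun x hx => (Finset.mem_filter.1 hx).1
    simp [PE, EE_empty, h0]
  | insert e E he ih =>
    have hA1 : Incr (fun ω => A (insert e ω)) :=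
      fun a b hab h => hA _ _ (Finset.insert_subset_insert e hab) h
    have i0 := ih hA
    have i1 := ih hA1
    simp only [PE] at i0 i1 ⊢
    rw [EE_insert p₀ he, EE_insert p he]
    have hp₀' : (0 : ℝ) ≤ 1 - p₀ := by linarith
    refine (add_le_add (mul_le_mul_of_nonneg_left i1 hp₀)
      (mul_le_mul_of_nonneg_left i0 hp₀')).trans ?_
    rw [← EE_mul_left, ← EE_mul_left, ← EE_mul_left, ← EE_mul_left, ← EE_add, ← EE_add]
    refine EE_mono hp.le hp1 fun ω hω => ?_
    have heω : e ∉ ω := fun h' => he (hω h')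
    have hp1piv : ∀ (x : α), x ∈ ω →
        (A ((insert e ω).erase x) ↔ A (insert e (ω.erase x))) := fun x hx => by
      rw [Finset.erase_insert_of_ne (fun hxe : e = x => heω (hxe ▸ hx))]
    by_cases hA0 : A ω
    · have hA1ω : A (insert e ω) := hA _ _ (Finset.subset_insert e ω) hA0
      rw [ind_of hA0, ind_of hA1ω]
      have hcard : (piv A (insert e ω)).card = (piv (fun ω => A (insert e ω)) ω).card := by
        congr 1
        ext x
        simp only [piv, Finset.mem_filter, Finset.mem_insert]
        constructor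
        · rintro ⟨hx | hx, hn⟩
          · subst hx
            exact absurd hA0 (by rwa [Finset.erase_insert heω] at hn)
          · exact ⟨hx, fun h' => hn ((hp1piv x hx).2 h')⟩
        · rintro ⟨hx, hn⟩
          exact ⟨Or.inr hx, fun h' => hn ((hp1piv x hx).1 h')⟩
      have hle : (piv (fun ω => A (insert e ω)) ω).card ≤ (piv A ω).card := by
        refine Finset.card_le_card fun x hx => ?_
        simp only [piv, Finset.mem_filter] at hx ⊢
        exact ⟨hx.1, fun h' => hx.2 (hA _ _ (Finset.subset_insert e _) h')⟩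
      rw [hcard]
      have hr0 : 0 ≤ p₀ / p := div_nonneg hp₀ hp.le
      have hr1 : p₀ / p ≤ 1 := (div_le_one hp).2 h
      have hpow := pow_le_pow_of_le_one hr0 hr1 hle
      have := mul_le_mul_of_nonneg_left hpow (sub_nonneg.2 h)
      linarith
    · rw [ind_of_not hA0]
      by_cases hA1ω : A (insert e ω)
      · rw [ind_of hA1ω]
        have hcard : (piv A (insert e ω)).card =
            (piv (fun ω => A (insert e ω)) ω).card + 1 := by
          rw [← Finset.card_insert_of_notMem (a := e)
            (s := piv (fun ω => A (insert e ω)) ω) (fun h' => heω (Finset.mem_filter.1 h').1)]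
          congr 1
          ext x
          simp only [piv, Finset.mem_filter, Finset.mem_insert]
          constructor
          · rintro ⟨hx | hx, hn⟩
            · exact Or.inl hx
            · exact Or.inr ⟨hx, fun h' => hn ((hp1piv x hx).2 h')⟩
          · rintro (rfl | ⟨hx, hn⟩)
            · exact ⟨Or.inl rfl, by rwa [Finset.erase_insert heω]⟩
            · exact ⟨Or.inr hx, fun h' => hn ((hp1piv x hx).1 h')⟩
        rw [hcard, pow_succ]
        field_simp
        simp
      · rw [ind_of_not hA1ω]
        simp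

/-- Russo's formula, first form. -/
theorem hasDerivAt_EE (E : Finset α) (f : Finset α → ℝ) (p : ℝ) :
    HasDerivAt (fun q : ℝ => EE q E f)
      (∑ e ∈ E, EE p (E.erase e) (fun ω => f (insert e ω) - f ω)) p := by
  induction E using Finset.induction generalizing f with
  | empty => simpa [EE_empty] using hasDerivAt_const p (f ∅)
  | insert e E he ih =>
    have hsub : ∀ (s : Finset α) (g k : Finset α → ℝ),
        EE p s (fun ω => g ω - k ω) = EE p s g - EE p s k := fun s g k => by
      simp [EE, mul_sub, Finset.sum_sub_distrib]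
    have h1 := ((hasDerivAt_id p).mul (ih fun ω => f (insert e ω))).add
      (((hasDerivAt_id p).const_sub 1).mul (ih f))
    refine (h1.congr_of_eventuallyEq
      (Filter.Eventually.of_forall fun q => by simp [EE_insert q he])).congr_deriv ?_
    rw [Finset.sum_insert he, Finset.erase_insert he, hsub]
    have h2 : ∀ x ∈ E, EE p ((insert e E).erase x) (fun ω => f (insert x ω) - f ω) =
        p * EE p (E.erase x) (fun ω => f (insert e (insert x ω)) - f (insert e ω)) +
        (1 - p) * EE p (E.erase x) (fun ω => f (insert x ω) - f ω) := fun x hx => by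
      rw [Finset.erase_insert_of_ne (fun hxe : e = x => he (hxe ▸ hx)),
        EE_insert p (fun h' => he (Finset.mem_erase.1 h').2)]
      simp only [Finset.insert_comm x e]
    rw [Finset.sum_congr rfl h2, Finset.sum_add_distrib, ← Finset.mul_sum, ← Finset.mul_sum]
    simp only [id]
    ring

/-- Second moment lower bound for the union of finitely many events. -/
theorem second_moment (hp0 : 0 ≤ p) (hp1 : p ≤ 1) {ι : Type*} (s : Finset ι)
    (A : ι → Finset α → Prop) (μ M : ℝ) (hμ : μ = ∑ i ∈ s, PE p E (A i))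
    (hM : ∑ i ∈ s, ∑ j ∈ s, PE p E (fun ω => A i ω ∧ A j ω) ≤ M) :
    μ ^ 2 ≤ M * PE p E (fun ω => ∃ i ∈ s, A i ω) := by
  have e1 : μ = ∑ ω ∈ E.powerset, wt p E ω * ∑ i ∈ s, ind (A i ω) := by
    rw [hμ]; exact (EE_sum p E s _).symm
  have e2 : ∑ i ∈ s, ∑ j ∈ s, PE p E (fun ω => A i ω ∧ A j ω) =
      ∑ ω ∈ E.powerset, wt p E ω * (∑ i ∈ s, ind (A i ω)) ^ 2 := by
    simp only [PE, EE, sq, Finset.sum_mul, Finset.mul_sum]
    rw [Finset.sum_comm]
    conv_lhs => arg 2; intro i; rw [Finset.sum_comm]
    rw [Finset.sum_comm]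
    refine Finset.sum_congr rfl fun ω _ => Finset.sum_congr rfl fun i _ =>
      Finset.sum_congr rfl fun j _ => ?_
    by_cases h1 : A i ω <;> by_cases h2 : A j ω <;> simp [ind, h1, h2]
  rw [e1]
  refine le_trans ?_ (mul_le_mul_of_nonneg_right (e2 ▸ hM) (PE_nonneg hp0 hp1 _))
  refine Finset.sum_sq_le_sum_mul_sum_of_sq_le_mul _
    (fun ω _ => mul_nonneg (wt_nonneg hp0 hp1 ω) (sq_nonneg _))
    (fun ω _ => mul_nonneg (wt_nonneg hp0 hp1 ω) (ind_nonneg _)) fun ω _ => le_of_eq ?_
  simp only []
  by_cases h : ∃ i ∈ s, A i ω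
  · rw [ind_of h]; ring
  · rw [ind_of_not h, Finset.sum_eq_zero fun i hi => ind_of_not fun hc => h ⟨i, hi, hc⟩]
    ring

end Vale.Agent.P165.Tree
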