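import Vale.Agent.P165.Tree.Fin.Conn

/-!
# The set lemma (P165, tree quotient)
-/

namespace Vale.Agent.P165.Tree

namespace SetLem

variable {V : Type*} [DecidableEq V]

/-- `C` may be the cluster of `o`: it is in `U` and avoids `T`. -/
def GoodC (T : Set V) (U : Finset V → Prop) (C : Finset V) : Prop := U C ∧ ∀ v ∈ C, v ∉ T

/-- The end of `e` outside `C` is joined to `T`. -/
def Out (T : Set V) (C : Finset V) (e : Sym2 V) (η : Finset (Sym2 V)) : Prop :=
  ∃ y ∈ e, y ∉ C ∧ ConnTo η y T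

theorem incr_out (T : Set V) (C : Finset V) (e : Sym2 V) : Incr (Out T C e) :=
  fun _ _ h ⟨y, h1, h2, h3⟩ => ⟨y, h1, h2, incr_connTo y T _ _ h h3⟩

/-- A chain of open edges joins its first vertex to its last. -/
theorem conn_chain {η : Finset (Sym2 V)} (v : ℕ → V) {i j : ℕ} (hij : i ≤ j)
    (h : ∀ k, i ≤ k → k < j → s(v k, v (k + 1)) ∈ η ∧ v k ≠ v (k + 1)) :
    Conn η (v i) (v j) := by
  induction hij with
  | refl => exact conn_refl η _
  | @step m hm ih =>
    refine conn_trans (ih fun k h1 h2 => h k h1 (Nat.lt_succ_of_lt h2)) ?_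
    have hadj := h m hm (Nat.lt_succ_self m)
    exact SimpleGraph.Adj.reachable
      ((SimpleGraph.fromEdgeSet_adj _).2 ⟨Finset.mem_coe.2 hadj.1, hadj.2⟩)

/-- A connection from a finite set leaves it for the last time through some edge. -/
theorem last_exit {η : Finset (Sym2 V)} {C : Finset V} {T : Set V} {u t : V}
    (w : (confGraph η).Walk u t) (ht : t ∈ T) (hC : ∀ v ∈ C, v ∉ T) :
    (u ∉ C ∧ ConnTo (η.filter fun f => ¬ Touches C f) u T) ∨
      ∃ e ∈ η, Touches C e ∧ Out T C e (η.filter fun f => ¬ Touches C f) := by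
  induction w with
  | @nil u => exact Or.inl ⟨fun hu => hC u hu ht, u, ht, conn_refl _ _⟩
  | @cons a b c hab w ih =>
    obtain ⟨hmem, hne⟩ := (SimpleGraph.fromEdgeSet_adj _).1 hab
    have hmem' : s(a, b) ∈ η := Finset.mem_coe.1 hmem
    rcases ih ht with ⟨hb, hbT⟩ | hright
    · by_cases ha : a ∈ C
      · exact Or.inr ⟨s(a, b), hmem', ⟨a, Sym2.mem_mk_left a b, ha⟩, b, Sym2.mem_mk_right a b,
          hb, hbT⟩
      · obtain ⟨s, hs, hbs⟩ := hbT
        refine Or.inl ⟨ha, s, hs, conn_trans (SimpleGraph.Adj.reachable ?_) hbs⟩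
        refine (SimpleGraph.fromEdgeSet_adj _).2 ⟨Finset.mem_coe.2 ?_, hne⟩
        refine Finset.mem_filter.2 ⟨hmem', ?_⟩
        rintro ⟨v, hv, hvC⟩
        rcases Sym2.mem_iff.1 hv with rfl | rfl
        · exact ha hvC
        · exact hb hvC
    · exact Or.inr hright

/-- Geometric sum along a ranking. -/
theorem sum_rank {ι : Type*} [DecidableEq ι] {r : ℝ} (hr0 : 0 ≤ r) (hr1 : r < 1)
    (idx : ι → ℕ) (P : ι → Finset ι) (S : Finset ι) :
    (∀ e ∈ S, ∀ e' ∈ S, e ≠ e' → idx e ≤ idx e' → e' ∈ P e) →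
      ∑ e ∈ S, r ^ (P e).card ≤ ∑ k ∈ Finset.range S.card, r ^ k := by
  induction hn : S.card generalizing S with
  | zero => intro _; rw [Finset.card_eq_zero.1 hn]; simp
  | succ n ih =>
    intro hP
    obtain ⟨e, he, hmin⟩ := S.exists_min_image idx (Finset.card_pos.1 (by omega))
    have hc : (S.erase e).card = n := by rw [Finset.card_erase_of_mem he]; omega
    have hrest := ih (S.erase e) hc fun a ha b hb =>
      hP a (Finset.mem_of_mem_erase ha) b (Finset.mem_of_mem_erase hb)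
    have hsub : S.erase e ⊆ P e := fun a ha =>
      hP e he a (Finset.mem_of_mem_erase ha) (Finset.ne_of_mem_erase ha).symm
        (hmin a (Finset.mem_of_mem_erase ha))
    have hfirst : r ^ (P e).card ≤ r ^ n :=
      pow_le_pow_of_le_one hr0 hr1.le (hc ▸ Finset.card_le_card hsub)
    rw [← Finset.add_sum_erase S _ he, Finset.sum_range_succ]
    linarith

theorem geom_le {r : ℝ} (hr0 : 0 ≤ r) (hr1 : r < 1) (n : ℕ) :
    ∑ k ∈ Finset.range n, r ^ k ≤ 1 / (1 - r) := by
  rw [geom_sum_eq hr1.ne, le_div_iff₀ (by linarith), div_mul_eq_mul_div,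
    div_le_iff_of_neg (by linarith)]
  nlinarith [pow_nonneg hr0 n]

/-- The summand of the exit expansion after exploring the cluster of `o`. -/
noncomputable def term (E : Finset (Sym2 V)) (o : V) (T : Set V) (U : Finset V → Prop) (r : ℝ)
    (ω : Finset (Sym2 V)) (e : Sym2 V) : ℝ :=
  ind (e ∈ touch E (clF ω o) ∧ GoodC T U (clF ω o)) *
    (ind (Out T (clF ω o) e (ω ∩ off E (clF ω o))) *
      r ^ (piv (Out T (clF ω o) e) (ω ∩ off E (clF ω o))).card)

variable {E : Finset (Sym2 V)} {o : V} {T : Set V} {U : Finset V → Prop} {r : ℝ}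

theorem term_nonneg (hr0 : 0 ≤ r) (ω : Finset (Sym2 V)) (e : Sym2 V) :
    0 ≤ term E o T U r ω e :=
  mul_nonneg (ind_nonneg _) (mul_nonneg (ind_nonneg _) (pow_nonneg hr0 _))

/-- An exit edge is closed. -/
theorem term_of_mem {ω : Finset (Sym2 V)} {e : Sym2 V} (he : e ∈ ω) :
    term E o T U r ω e = 0 := by
  unfold term
  by_cases h1 : e ∈ touch E (clF ω o) ∧ GoodC T U (clF ω o)
  · by_cases h2 : Out T (clF ω o) e (ω ∩ off E (clF ω o))
    · obtain ⟨y, hy, hyC, -⟩ := h2
      obtain ⟨x, hx, hxC⟩ := (Finset.mem_filter.1 h1.1).2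
      have hxy : x ≠ y := fun h => hyC (h ▸ hxC)
      have hse : e = s(x, y) := (Sym2.mem_and_mem_iff hxy).1 ⟨hx, hy⟩
      refine absurd (mem_clF.2 (conn_trans (mem_clF.1 hxC) (SimpleGraph.Adj.reachable ?_))) hyC
      exact (SimpleGraph.fromEdgeSet_adj _).2 ⟨Finset.mem_coe.2 (hse ▸ he), hxy⟩
    · simp [ind_of_not h2]
  · simp [ind_of_not h1]

/-- After opening an exit edge, all candidates lie on one path and are ranked by pivotality. -/
theorem sum_term_erase (hU : ∀ a b, a ⊆ b → U a → U b) (hr0 : 0 ≤ r) (hr1 : r < 1)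
    (ω' : Finset (Sym2 V)) (hω' : ω' ⊆ E) :
    ∑ e ∈ ω', term E o T U r (ω'.erase e) e ≤
      1 / (1 - r) * ind (U (clF ω' o) ∧ ConnTo ω' o T) := by
  classical
  set C : Sym2 V → Finset V := fun e => clF (ω'.erase e) o
  set η : Sym2 V → Finset (Sym2 V) := fun e => ω'.erase e ∩ off E (C e)
  set S := ω'.filter fun e =>
    (e ∈ touch E (C e) ∧ GoodC T U (C e)) ∧ Out T (C e) e (η e)
  have hsplit : ∑ e ∈ ω', term E o T U r (ω'.erase e) e
      = ∑ e ∈ S, r ^ (piv (Out T (C e) e) (η e)).card := by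
    rw [Finset.sum_filter]
    refine Finset.sum_congr rfl fun e _ => ?_
    unfold term ind
    split_ifs <;> simp_all [C, η]
  rw [hsplit]
  rcases S.eq_empty_or_nonempty with hS | ⟨e₀, he₀⟩
  · rw [hS, Finset.sum_empty]
    exact mul_nonneg (div_nonneg zero_le_one (by linarith)) (ind_nonneg _)
  have hC : ∀ e, ∀ v, v ∈ C e ↔ Conn (ω'.erase e) o v := fun e v => mem_clF
  have hconn : U (clF ω' o) ∧ ConnTo ω' o T := by
    obtain ⟨heω, ⟨het, hgU, -⟩, y, hy, hyC, t, ht, hyt⟩ := Finset.mem_filter.1 he₀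
    refine ⟨hU _ _ (fun v hv => mem_clF.2 (conn_mono (Finset.erase_subset _ _)
      ((hC e₀ v).1 hv))) hgU, t, ht, ?_⟩
    obtain ⟨x, hx, hxC⟩ := (Finset.mem_filter.1 het).2
    have hxy : x ≠ y := fun h => hyC (h ▸ hxC)
    have hse : e₀ = s(x, y) := (Sym2.mem_and_mem_iff hxy).1 ⟨hx, hy⟩
    refine conn_trans (conn_mono (Finset.erase_subset _ _) ((hC e₀ x).1 hxC))
      (conn_trans (SimpleGraph.Adj.reachable ((SimpleGraph.fromEdgeSet_adj _).2
        ⟨Finset.mem_coe.2 (hse ▸ heω), hxy⟩)) ?_)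
    exact conn_mono (Finset.inter_subset_left.trans (Finset.erase_subset _ _)) hyt
  rw [ind_of hconn, mul_one]
  obtain ⟨t, ht, hot⟩ := hconn.2
  obtain ⟨w, hw⟩ : ∃ w : (confGraph ω').Walk o t, w.IsPath := hot.exists_isPath
  set v : ℕ → V := w.getVert with hv
  set n := w.length with hn
  have hv0 : v 0 = o := w.getVert_zero
  have hvn : v n = t := w.getVert_length
  have hinj : ∀ a b, a ≤ n → b ≤ n → v a = v b → a = b := fun a b ha hb h =>
    hw.getVert_injOn ha hb h
  have hadj : ∀ k, k < n → s(v k, v (k + 1)) ∈ ω' ∧ v k ≠ v (k + 1) := fun k hk => by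
    have := (SimpleGraph.fromEdgeSet_adj _).1 (w.adj_getVert_succ hk)
    exact ⟨Finset.mem_coe.1 this.1, this.2⟩
  have hedge : ∀ a b, a < n → b < n → s(v a, v (a + 1)) = s(v b, v (b + 1)) → a = b := by
    intro a b ha hb h
    rcases Sym2.eq_iff.1 h with ⟨h1, -⟩ | ⟨h1, h2⟩
    · exact hinj a b ha.le hb.le h1
    · have := hinj a (b + 1) ha.le hb h1
      have := hinj (a + 1) b ha hb.le h2
      omega
  have hbad : ∀ e ∈ S, ¬ ConnTo (ω'.erase e) o T := by
    rintro e he ⟨s, hs, hos⟩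
    exact (Finset.mem_filter.1 he).2.1.2.2 s ((hC e s).2 hos) hs
  have hon : ∀ e ∈ S, ∃ k, k < n ∧ e = s(v k, v (k + 1)) := by
    intro e he
    by_contra hcon
    push Not at hcon
    refine hbad e he ⟨t, ht, ?_⟩
    have := conn_chain (η := ω'.erase e) v (Nat.zero_le n) fun k _ hk =>
      ⟨Finset.mem_erase.2 ⟨(hcon k hk).symm, (hadj k hk).1⟩, (hadj k hk).2⟩
    rwa [hv0, hvn] at this
  choose! idx hidx using hon
  refine le_trans (sum_rank hr0 hr1 idx _ S ?_) (geom_le hr0 hr1 _)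
  intro e he e' he' hne hle
  obtain ⟨hi, hei⟩ := hidx e he
  obtain ⟨hj, hej⟩ := hidx e' he'
  set i := idx e
  set j := idx e'
  have hij : i < j := lt_of_le_of_ne hle fun h => hne (by rw [hei, hej, h])
  have havoid : ∀ (f : Sym2 V) (a : ℕ), a < n → f = s(v a, v (a + 1)) → ∀ k, k < n → k ≠ a →
      s(v k, v (k + 1)) ∈ ω'.erase f := fun f a ha hf k hk hka =>
    Finset.mem_erase.2 ⟨fun h => hka (hedge k a hk ha (h.trans hf)), (hadj k hk).1⟩
  have hpre : Conn (ω'.erase e) o (v i) := by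
    rw [← hv0]
    exact conn_chain v (Nat.zero_le i) fun k _ hk =>
      ⟨havoid e i hi hei k (hk.trans hi) hk.ne, (hadj k (hk.trans hi)).2⟩
  have hpost : ∀ a, i < a → a ≤ n → v a ∉ C e := by
    intro a ha han hmem
    refine hbad e he ⟨t, ht, conn_trans ((hC e _).1 hmem) ?_⟩
    rw [← hvn]
    exact conn_chain v han fun k h1 h2 =>
      ⟨havoid e i hi hei k h2 (by omega), (hadj k h2).2⟩
  have hmem : e' ∈ η e := by
    refine Finset.mem_inter.2 ⟨Finset.mem_erase.2 ⟨hne.symm, (Finset.mem_filter.1 he').1⟩,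
      Finset.mem_filter.2 ⟨hω' (Finset.mem_filter.1 he').1, ?_⟩⟩
    rintro ⟨z, hz, hzC⟩
    rw [hej, Sym2.mem_iff] at hz
    rcases hz with rfl | rfl
    · exact hpost j hij hj.le hzC
    · exact hpost (j + 1) (by omega) hj hzC
  refine Finset.mem_filter.2 ⟨hmem, ?_⟩
  rintro ⟨y, hy, hyC, s, hs, hys⟩
  rw [hei, Sym2.mem_iff] at hy
  rcases hy with rfl | rfl
  · exact hyC ((hC e _).2 hpre)
  · refine hbad e' he' ⟨s, hs, ?_⟩
    have h1 : Conn (ω'.erase e') (v 0) (v (i + 1)) :=
      conn_chain v (Nat.zero_le _) fun k _ hk =>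
        ⟨havoid e' j hj hej k (by omega) (by omega), (hadj k (by omega)).2⟩
    rw [hv0] at h1
    refine conn_trans h1 (conn_mono ?_ hys)
    exact Finset.erase_subset_erase _ (Finset.inter_subset_left.trans (Finset.erase_subset _ _))

/-- Flipping an exit edge open. -/
theorem flip {p : ℝ} (hp : 0 < p) {e : Sym2 V} (he : e ∈ E) (g : Finset (Sym2 V) → ℝ)
    (hg : ∀ ω, e ∈ ω → g ω = 0) :
    EE p E g = (1 - p) / p * EE p E (fun ω => ind (e ∈ ω) * g (ω.erase e)) := by
  have hnot : e ∉ E.erase e := Finset.notMem_erase e E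
  conv_lhs => rw [← Finset.insert_erase he, EE_insert p hnot]
  conv_rhs => rw [← Finset.insert_erase he, EE_insert p hnot]
  have h1 : EE p (E.erase e) (fun ω => g (insert e ω)) = 0 := by
    rw [EE_congr p (g := fun _ => (0 : ℝ)) fun ω _ => hg _ (Finset.mem_insert_self e ω), EE_const]
  have h2 : EE p (E.erase e) (fun ω => ind (e ∈ insert e ω) * g ((insert e ω).erase e))
      = EE p (E.erase e) g := by
    refine EE_congr p fun ω hω => ?_
    rw [ind_of (Finset.mem_insert_self e ω), one_mul,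
      Finset.erase_insert fun h => hnot (hω h)]
  have h3 : EE p (E.erase e) (fun ω => ind (e ∈ ω) * g (ω.erase e)) = 0 := by
    rw [EE_congr p (g := fun _ => (0 : ℝ)) fun ω hω => ?_, EE_const]
    rw [ind_of_not fun h => hnot (hω h), zero_mul]
  rw [h1, h2, h3]
  field_simp
  ring

/-- The union bound over exit edges, then thinning. -/
theorem exit_bound {p₀ p : ℝ} (hp₀ : 0 ≤ p₀) (h : p₀ < p) (hp1 : p ≤ 1) (C : Finset V)
    (hC : ∀ v ∈ C, v ∉ T) :
    PE p₀ E (fun η => ConnSet η C T) ≤ p₀ * ∑ e ∈ touch E C, EE p (off E C)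
      (fun b => ind (Out T C e b) * (p₀ / p) ^ (piv (Out T C e) b).card) := by
  have hp01 : p₀ ≤ 1 := h.le.trans hp1
  refine (EE_mono hp₀ hp01 (g := fun η => ∑ e ∈ touch E C,
    ind (e ∈ η ∧ Out T C e (η ∩ off E C))) fun η hη => ?_).trans ?_
  · by_cases hc : ConnSet η C T
    · obtain ⟨x, hx, t, ht, ⟨w⟩⟩ := hc
      rcases last_exit w ht hC with ⟨hxC, -⟩ | ⟨e, heη, heC, hout⟩
      · exact absurd hx hxC
      · have he : e ∈ touch E C := Finset.mem_filter.2 ⟨hη heη, heC⟩
        have hsub : (η.filter fun f => ¬ Touches C f) ⊆ η ∩ off E C := fun f hf => by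
          obtain ⟨h1, h2⟩ := Finset.mem_filter.1 hf
          exact Finset.mem_inter.2 ⟨h1, Finset.mem_filter.2 ⟨hη h1, h2⟩⟩
        refine le_trans ?_ (Finset.single_le_sum (fun f _ => ind_nonneg _) he)
        rw [ind_of (show e ∈ η ∧ Out T C e (η ∩ off E C) from
          ⟨heη, incr_out T C e _ _ hsub hout⟩)]
        exact ind_le_one _
    · rw [ind_of_not hc]
      exact Finset.sum_nonneg fun f _ => ind_nonneg _
  · rw [EE_sum, Finset.mul_sum]
    refine Finset.sum_le_sum fun e he => ?_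
    obtain ⟨heE, heC⟩ := Finset.mem_filter.1 he
    have hnot : e ∉ off E C := fun h' => (Finset.mem_filter.1 h').2 heC
    have hsub : insert e (off E C) ⊆ E :=
      Finset.insert_subset heE (Finset.filter_subset _ _)
    have hmar : EE p₀ E (fun η => ind (e ∈ η ∧ Out T C e (η ∩ off E C))) =
        p₀ * PE p₀ (off E C) (Out T C e) := by
      rw [EE_congr p₀ (g := fun η => (fun s => ind (e ∈ s ∧ Out T C e (s ∩ off E C)))
        (η ∩ insert e (off E C))) fun η _ => ?_,
        EE_marginal p₀ hsub fun s => ind (e ∈ s ∧ Out T C e (s ∩ off E C)), EE_insert p₀ hnot]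
      · rw [EE_congr p₀ (g := fun b => ind (Out T C e b)) fun b hb => ?_,
          EE_congr p₀ (f := fun s => ind (e ∈ s ∧ Out T C e (s ∩ off E C)))
            (g := fun _ => (0 : ℝ)) fun b hb => ?_, EE_const, mul_zero, add_zero]
        · rfl
        · exact ind_of_not fun h' => hnot (hb h'.1)
        · have hbb : insert e b ∩ off E C = b := by
            rw [Finset.insert_inter_of_notMem hnot, Finset.inter_eq_left.2 hb]
          simp only [hbb, Finset.mem_insert_self, true_and]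
      · have hi : η ∩ insert e (off E C) ∩ off E C = η ∩ off E C := by
          rw [Finset.inter_assoc, Finset.inter_eq_right.2 (Finset.subset_insert _ _)]
        simp only [Finset.mem_inter, Finset.mem_insert_self, and_true, hi]
    rw [hmar]
    exact mul_le_mul_of_nonneg_left
      (thinning hp₀ h.le (hp₀.trans_lt h) hp1 (incr_out T C e)) hp₀

end SetLem

open SetLem

variable {V : Type*} [DecidableEq V]

/-- At `p`, given the cluster of `o`, if it connects to `T` at a smaller `p₀` with a good chance,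
then it connects to `T` at `p` with a comparable chance. -/
theorem setLemma {p₀ p : ℝ} (hp₀ : 0 ≤ p₀) (h : p₀ < p) (hp1 : p ≤ 1) (E : Finset (Sym2 V))
    (o : V) (T : Set V) (U : Finset V → Prop) (hU : ∀ a b, a ⊆ b → U a → U b) :
    EE p E (fun ω => ind (U (clF ω o)) * PE p₀ E (fun η => ConnSet η (clF ω o) T)) ≤
      p * (1 - p₀) / (p - p₀) * PE p E (fun ω => U (clF ω o) ∧ ConnTo ω o T) := by
  have hp : 0 < p := hp₀.trans_lt h
  set r := p₀ / p with hr
  have hr0 : 0 ≤ r := div_nonneg hp₀ hp.le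
  have hr1 : r < 1 := (div_lt_one hp).2 h
  set P := PE p E (fun ω => U (clF ω o) ∧ ConnTo ω o T) with hP
  let F : Finset V → Finset (Sym2 V) → Finset (Sym2 V) → ℝ := fun C _ b =>
    ∑ e ∈ touch E C, ind (GoodC T U C) * (ind (Out T C e b) * r ^ (piv (Out T C e) b).card)
  set K : Finset (Sym2 V) → Finset V := fun ω => clF ω o
  have hstep1 : EE p E (fun ω => ind (U (clF ω o)) * PE p₀ E (fun η => ConnSet η (clF ω o) T)) ≤
      P + p₀ * EE p E (fun ω => EE p (off E (K ω)) (F (K ω) (ω ∩ touch E (K ω)))) := by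
    rw [hP, PE, ← EE_mul_left, ← EE_add]
    refine EE_mono hp.le hp1 fun ω _ => ?_
    have hF : EE p (off E (K ω)) (F (K ω) (ω ∩ touch E (K ω))) = ind (GoodC T U (K ω)) *
        ∑ e ∈ touch E (K ω), EE p (off E (K ω))
          (fun b => ind (Out T (K ω) e b) * r ^ (piv (Out T (K ω) e) b).card) := by
      simp only [F, ← Finset.mul_sum, EE_mul_left, EE_sum]
    rw [hF]
    have hnn : 0 ≤ p₀ * (ind (GoodC T U (K ω)) * ∑ e ∈ touch E (K ω), EE p (off E (K ω))
        (fun b => ind (Out T (K ω) e b) * r ^ (piv (Out T (K ω) e) b).card)) :=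
      mul_nonneg hp₀ (mul_nonneg (ind_nonneg _) (Finset.sum_nonneg fun e _ =>
        EE_nonneg hp.le hp1 fun b _ => mul_nonneg (ind_nonneg _) (pow_nonneg hr0 _)))
    by_cases hUC : U (clF ω o)
    · by_cases hoT : ConnTo ω o T
      · rw [ind_of hUC, one_mul, ind_of (show U (clF ω o) ∧ ConnTo ω o T from ⟨hUC, hoT⟩)]
        linarith [PE_le_one (E := E) hp₀ (h.le.trans hp1) fun η => ConnSet η (clF ω o) T]
      · have hgood : GoodC T U (K ω) :=
          ⟨hUC, fun v hv hvT => hoT ⟨v, hvT, mem_clF.1 hv⟩⟩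
        rw [ind_of hUC, one_mul, ind_of_not (fun h' : U (clF ω o) ∧ ConnTo ω o T => hoT h'.2),
          zero_add, ind_of hgood, one_mul]
        exact exit_bound hp₀ h hp1 _ hgood.2
    · rw [ind_of_not hUC, zero_mul]
      linarith [ind_nonneg (U (clF ω o) ∧ ConnTo ω o T)]
  have hexp : EE p E (fun ω => EE p (off E (K ω)) (F (K ω) (ω ∩ touch E (K ω)))) =
      EE p E (fun ω => ∑ e ∈ E, term E o T U r ω e) := by
    rw [← EE_explore p E K (fun ω ω' a b c => reach_stop E {o} ω ω' a b c) F]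
    refine EE_congr p fun ω _ => ?_
    refine (Finset.sum_congr rfl fun e he => ?_).trans (Finset.sum_subset
      (Finset.filter_subset (Touches (K ω)) E) fun e _ he => ?_)
    · simp only [term, K]
      congr 1
      unfold ind
      split_ifs <;> simp_all [K]
    · simp only [term]
      rw [ind_of_not (fun h' => he h'.1), zero_mul]
  have hflip : EE p E (fun ω => ∑ e ∈ E, term E o T U r ω e) ≤
      (1 - p) / p * (1 / (1 - r) * P) := by
    rw [EE_sum, Finset.sum_congr rfl fun e he =>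
      flip hp he (fun ω => term E o T U r ω e) fun ω hω => term_of_mem hω,
      ← Finset.mul_sum, ← EE_sum, hP, PE, ← EE_mul_left p E (1 / (1 - r))]
    refine mul_le_mul_of_nonneg_left (EE_mono hp.le hp1 fun ω hω => ?_)
      (div_nonneg (sub_nonneg.2 hp1) hp.le)
    refine le_of_eq_of_le ?_ (sum_term_erase hU hr0 hr1 ω hω)
    rw [← Finset.sum_subset hω (f := fun e => ind (e ∈ ω) * term E o T U r (ω.erase e) e)
      fun e _ he => by rw [ind_of_not he, zero_mul]]
    exact Finset.sum_congr rfl fun e he => by rw [ind_of he, one_mul]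
  have hP0 : 0 ≤ P := PE_nonneg hp.le hp1 _
  calc _ ≤ P + p₀ * ((1 - p) / p * (1 / (1 - r) * P)) :=
        hstep1.trans (add_le_add le_rfl (mul_le_mul_of_nonneg_left (hexp.trans_le hflip) hp₀))
    _ = p * (1 - p₀) / (p - p₀) * P := by
        have : p - p₀ ≠ 0 := sub_ne_zero.2 h.ne'
        rw [hr]
        field_simp
        ring

end Vale.Agent.P165.Tree
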